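import Vale.Agent.P214.EX.Net

/-! One level of the exhaustion: from a function which is log-Lipschitz at scale `2t` subtract
small multiples of kernels with radii in `[2t, 4t]` centred at nets of given sets of centres. -/

open Set Filter Topology Metric

namespace Vale.Agent.P214.EX

variable {E : Type*} [NormedAddCommGroup E] [NormedSpace ℝ E] [FiniteDimensional ℝ E]

/-- A kernel: supported in the unit ball, at least `c₀` on the half ball, `K`-Lipschitz. -/
structure IsKernel (η : E → ℝ) (K c₀ : ℝ) : Prop where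
  nonneg : ∀ x, 0 ≤ η x
  le_one : ∀ x, η x ≤ 1
  supp : ∀ x, 1 ≤ ‖x‖ → η x = 0
  lower : ∀ x, ‖x‖ ≤ 1 / 2 → c₀ ≤ η x
  lip : ∀ x y, |η x - η y| ≤ K * ‖x - y‖
  one_le : 1 ≤ K
  pos : 0 < c₀

/-- the kernel with centre `p` and radius `r` -/
noncomputable def ker (η : E → ℝ) (p : E) (r : ℝ) (x : E) : ℝ := η (r⁻¹ • (x - p))

/-- `ρ` is log-Lipschitz at scale `t` on `Ω` -/
def LogLip (Ω : Set E) (t : ℝ) (ρ : E → ℝ) : Prop :=
  ∀ x ∈ Ω, ∀ y ∈ Ω, dist x y ≤ 4 * t → |ρ x - ρ y| ≤ (1 / 8) * (dist x y / t) * ρ y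

/-- a combination of kernels -/
noncomputable def comb (η : E → ℝ) (n : ℕ) (net : ℕ → Finset E) (R : ℕ → E → ℝ) (ρ : E → ℝ)
    (a : ℕ → ℝ) (x : E) : ℝ :=
  ∑ q ∈ Finset.range n, ∑ p ∈ net q, (a q * (ρ p / 2)) * ker η p (R q p) x

section kernel

variable {η : E → ℝ} {K c₀ : ℝ} (hη : IsKernel η K c₀)
include hη

theorem IsKernel.continuous : Continuous η := by
  have : LipschitzWith (Real.toNNReal K) η := by
    refine LipschitzWith.of_dist_le_mul fun x y => ?_
    rw [Real.dist_eq, Real.coe_toNNReal _ (by linarith [hη.one_le]), dist_eq_norm]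
    exact hη.lip x y
  exact this.continuous

theorem ker_nonneg (p : E) (r : ℝ) (x : E) : 0 ≤ ker η p r x := hη.nonneg _

theorem ker_le_one (p : E) (r : ℝ) (x : E) : ker η p r x ≤ 1 := hη.le_one _

theorem ker_continuous (p : E) (r : ℝ) : Continuous (ker η p r) := by
  unfold ker
  exact hη.continuous.comp (by fun_prop)

theorem ker_eq_zero {p : E} {r : ℝ} (hr : 0 < r) {x : E} (hx : r ≤ dist x p) :
    ker η p r x = 0 := by
  refine hη.supp _ ?_
  rw [norm_smul, norm_inv, Real.norm_of_nonneg hr.le, ← dist_eq_norm, le_inv_mul_iff₀ hr]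
  linarith

theorem ker_lower {p : E} {r : ℝ} (hr : 0 < r) {x : E} (hx : dist x p ≤ r / 2) :
    c₀ ≤ ker η p r x := by
  refine hη.lower _ ?_
  rw [norm_smul, norm_inv, Real.norm_of_nonneg hr.le, ← dist_eq_norm, inv_mul_le_iff₀ hr]
  linarith

theorem ker_lip {p : E} {r : ℝ} (hr : 0 < r) (x y : E) :
    |ker η p r x - ker η p r y| ≤ K * (dist x y / r) := by
  refine (hη.lip _ _).trans (le_of_eq ?_)
  rw [← smul_sub, norm_smul, norm_inv, Real.norm_of_nonneg hr.le,
    show x - p - (y - p) = x - y by abel, ← dist_eq_norm]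
  ring

end kernel

/-- the hypotheses of one level -/
structure LevelHyp (η : E → ℝ) (K c₀ : ℝ) (M : ℕ) (D Ω : Set E) (t : ℝ) (n : ℕ)
    (G : ℕ → Set E) (R : ℕ → E → ℝ) (s : ℕ → ℝ) (ρ : E → ℝ) : Prop where
  kernel : IsKernel η K c₀
  hM : 1 ≤ M
  packing : ∀ (s : Finset E) (x : E) (t : ℝ), 0 < t →
    (∀ c ∈ s, dist c x ≤ 4 * t) → (∀ c ∈ s, ∀ d ∈ s, c ≠ d → t ≤ dist c d) → s.card ≤ M
  bdd : Bornology.IsBounded D
  sub : ∀ p ∈ D, closedBall p (4 * t) ⊆ Ω
  ht : 0 < t
  hG : ∀ q < n, G q ⊆ D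
  hR : ∀ q < n, ∀ p ∈ G q, 2 * t ≤ R q p ∧ R q p ≤ 4 * t
  s_nonneg : ∀ q, 0 ≤ s q
  s_sum : (∑ q ∈ Finset.range n, s q) * (64 * M * K) ≤ 1
  cont : Continuous ρ
  nonneg : ∀ x, 0 ≤ ρ x
  loglip : LogLip Ω (2 * t) ρ

section step

variable {η : E → ℝ} {K c₀ : ℝ} {M : ℕ} {D Ω : Set E} {t : ℝ} {n : ℕ}
  {G : ℕ → Set E} {R : ℕ → E → ℝ} {s : ℕ → ℝ} {ρ : E → ℝ}

/-- the nets used at one level -/
structure NetHyp (D : Set E) (t : ℝ) (n : ℕ) (G : ℕ → Set E) (net : ℕ → Finset E) : Prop where
  mem : ∀ q < n, ∀ p ∈ net q, p ∈ G q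
  sep : ∀ q < n, ∀ c ∈ net q, ∀ d ∈ net q, c ≠ d → t ≤ dist c d
  near : ∀ q < n, ∀ x ∈ G q, ∃ c ∈ net q, dist x c < t

theorem exists_nets (h : LevelHyp η K c₀ M D Ω t n G R s ρ) :
    ∃ net : ℕ → Finset E, NetHyp D t n G net := by
  classical
  have : ∀ q, q < n → ∃ s : Finset E, (∀ c ∈ s, c ∈ G q) ∧
      (∀ c ∈ s, ∀ d ∈ s, c ≠ d → t ≤ dist c d) ∧ ∀ x ∈ G q, ∃ c ∈ s, dist x c < t :=
    fun q hq => exists_net (G q) (h.bdd.subset (h.hG q hq)) t h.ht
  choose! net h1 h2 h3 using this
  exact ⟨net, h1, h2, h3⟩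

variable {net : ℕ → Finset E} (h : LevelHyp η K c₀ M D Ω t n G R s ρ) (hn : NetHyp D t n G net)
include h hn

theorem count_le {q : ℕ} (hq : q < n) (x : E) :
    ((net q).filter fun p => dist p x ≤ 4 * t).card ≤ M := by
  classical
  refine h.packing _ x t h.ht (fun c hc => (Finset.mem_filter.1 hc).2) ?_
  intro c hc d hd hne
  exact hn.sep q hq c (Finset.mem_filter.1 hc).1 d (Finset.mem_filter.1 hd).1 hne

theorem comb_nonneg {a : ℕ → ℝ} (ha : ∀ q, 0 ≤ a q) (x : E) : 0 ≤ comb η n net R ρ a x := by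
  unfold comb
  refine Finset.sum_nonneg fun q _ => Finset.sum_nonneg fun p _ => ?_
  exact mul_nonneg (mul_nonneg (ha q) (by linarith [h.nonneg p])) (ker_nonneg h.kernel _ _ _)

theorem comb_continuous (a : ℕ → ℝ) : Continuous (comb η n net R ρ a) := by
  unfold comb
  exact continuous_finsetSum _ fun q _ => continuous_finsetSum _ fun p _ =>
    continuous_const.mul (ker_continuous h.kernel _ _)

theorem ker_zero_of_far {q : ℕ} (hq : q < n) {p : E} (hp : p ∈ net q) {x : E}
    (hx : 4 * t < dist p x) : ker η p (R q p) x = 0 := by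
  have h1 := h.hR q hq p (hn.mem q hq p hp)
  refine ker_eq_zero h.kernel (by linarith [h.ht]) ?_
  rw [dist_comm]
  linarith

theorem near_le {x p : E} (hp : p ∈ D) (hx : dist p x ≤ 4 * t) : ρ p ≤ 5 / 4 * ρ x := by
  have hxΩ : x ∈ Ω := h.sub p hp (by rw [mem_closedBall, dist_comm]; exact hx)
  have hpΩ : p ∈ Ω := h.sub p hp (mem_closedBall_self (by linarith [h.ht]))
  have h1 := h.loglip p hpΩ x hxΩ (by linarith [h.ht])
  have ht := h.ht
  have h2 : dist p x / (2 * t) ≤ 2 := by
    rw [div_le_iff₀ (by linarith)]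
    linarith
  have h3 : (1 / 8 : ℝ) * (dist p x / (2 * t)) * ρ x ≤ 1 / 4 * ρ x := by
    refine mul_le_mul_of_nonneg_right ?_ (h.nonneg x)
    linarith
  have h4 := le_abs_self (ρ p - ρ x)
  linarith

/-- the total subtracted mass is at most `ρ / 64` -/
theorem comb_le (x : E) : comb η n net R ρ s x ≤ ρ x / 64 := by
  classical
  have hM : (0 : ℝ) < M := by exact_mod_cast h.hM
  have hK := h.kernel.one_le
  have hinner : ∀ q ∈ Finset.range n,
      ∑ p ∈ net q, (s q * (ρ p / 2)) * ker η p (R q p) x ≤ s q * (M * ρ x) := by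
    intro q hq
    have hq' : q < n := Finset.mem_range.1 hq
    have h1 : ∑ p ∈ net q, (s q * (ρ p / 2)) * ker η p (R q p) x
        = ∑ p ∈ (net q).filter (fun p => dist p x ≤ 4 * t),
            (s q * (ρ p / 2)) * ker η p (R q p) x := by
      symm
      refine Finset.sum_filter_of_ne fun p hp hne => ?_
      by_contra hcon
      push Not at hcon
      exact hne (by rw [ker_zero_of_far h hn hq' hp hcon, mul_zero])
    rw [h1]
    have h2 : ∀ p ∈ (net q).filter (fun p => dist p x ≤ 4 * t),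
        (s q * (ρ p / 2)) * ker η p (R q p) x ≤ s q * ρ x := by
      intro p hp
      obtain ⟨hp1, hp2⟩ := Finset.mem_filter.1 hp
      have h3 := near_le h hn (h.hG q hq' (hn.mem q hq' p hp1)) hp2
      have h4 : s q * (ρ p / 2) ≤ s q * ρ x :=
        mul_le_mul_of_nonneg_left (by linarith [h.nonneg x]) (h.s_nonneg q)
      calc (s q * (ρ p / 2)) * ker η p (R q p) x ≤ (s q * (ρ p / 2)) * 1 :=
            mul_le_mul_of_nonneg_left (ker_le_one h.kernel _ _ _)
              (mul_nonneg (h.s_nonneg q) (by linarith [h.nonneg p]))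
        _ ≤ s q * ρ x := by linarith
    have h5 := Finset.sum_le_card_nsmul _ _ _ h2
    refine h5.trans ?_
    rw [nsmul_eq_mul]
    have h6 : (((net q).filter fun p => dist p x ≤ 4 * t).card : ℝ) ≤ M := by
      exact_mod_cast count_le h hn hq' x
    have h7 : 0 ≤ s q * ρ x := mul_nonneg (h.s_nonneg q) (h.nonneg x)
    calc (((net q).filter fun p => dist p x ≤ 4 * t).card : ℝ) * (s q * ρ x)
        ≤ M * (s q * ρ x) := mul_le_mul_of_nonneg_right h6 h7
      _ = s q * (M * ρ x) := by ring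
  have h8 : comb η n net R ρ s x ≤ ∑ q ∈ Finset.range n, s q * (M * ρ x) := by
    unfold comb
    exact Finset.sum_le_sum hinner
  rw [← Finset.sum_mul] at h8
  have hS : 0 ≤ ∑ q ∈ Finset.range n, s q := Finset.sum_nonneg fun q _ => h.s_nonneg q
  have h9 : (∑ q ∈ Finset.range n, s q) * (64 * M) ≤ 1 := by
    refine le_trans ?_ h.s_sum
    refine mul_le_mul_of_nonneg_left ?_ hS
    nlinarith
  have h10 := mul_le_mul_of_nonneg_right h9 (h.nonneg x)
  nlinarith [h.nonneg x]

/-- support of the combination -/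
theorem comb_eq_zero {a : ℕ → ℝ} {x : E} (hx : x ∉ Ω) : comb η n net R ρ a x = 0 := by
  unfold comb
  refine Finset.sum_eq_zero fun q hq => Finset.sum_eq_zero fun p hp => ?_
  have hq' : q < n := Finset.mem_range.1 hq
  have hpD := h.hG q hq' (hn.mem q hq' p hp)
  rw [ker_zero_of_far h hn hq' hp, mul_zero]
  by_contra hcon
  push Not at hcon
  exact hx (h.sub p hpD (by rw [mem_closedBall, dist_comm]; exact hcon))

/-- far from all centres the combination vanishes -/
theorem comb_far {a : ℕ → ℝ} {x : E} (hx : ∀ q < n, ∀ p ∈ G q, 4 * t ≤ dist p x) :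
    comb η n net R ρ a x = 0 := by
  unfold comb
  refine Finset.sum_eq_zero fun q hq => Finset.sum_eq_zero fun p hp => ?_
  have hq' : q < n := Finset.mem_range.1 hq
  have hpG := hn.mem q hq' p hp
  have h1 := h.hR q hq' p hpG
  have h2 := hx q hq' p hpG
  rw [ker_eq_zero h.kernel (by linarith [h.ht]) (by rw [dist_comm]; linarith), mul_zero]

/-- the mass subtracted by one class -/
theorem class_le {q : ℕ} (hq' : q < n) (x : E) :
    ∑ p ∈ net q, (s q * (ρ p / 2)) * ker η p (R q p) x ≤ s q * (M * ρ x) := by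
  classical
  have h1 : ∑ p ∈ net q, (s q * (ρ p / 2)) * ker η p (R q p) x
      = ∑ p ∈ (net q).filter (fun p => dist p x ≤ 4 * t),
          (s q * (ρ p / 2)) * ker η p (R q p) x := by
    symm
    refine Finset.sum_filter_of_ne fun p hp hne => ?_
    by_contra hcon
    push Not at hcon
    exact hne (by rw [ker_zero_of_far h hn hq' hp hcon, mul_zero])
  rw [h1]
  have h2 : ∀ p ∈ (net q).filter (fun p => dist p x ≤ 4 * t),
      (s q * (ρ p / 2)) * ker η p (R q p) x ≤ s q * ρ x := by
    intro p hp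
    obtain ⟨hp1, hp2⟩ := Finset.mem_filter.1 hp
    have h3 := near_le h hn (h.hG q hq' (hn.mem q hq' p hp1)) hp2
    have h4 : s q * (ρ p / 2) ≤ s q * ρ x :=
      mul_le_mul_of_nonneg_left (by linarith [h.nonneg x]) (h.s_nonneg q)
    calc (s q * (ρ p / 2)) * ker η p (R q p) x ≤ (s q * (ρ p / 2)) * 1 :=
          mul_le_mul_of_nonneg_left (ker_le_one h.kernel _ _ _)
            (mul_nonneg (h.s_nonneg q) (by linarith [h.nonneg p]))
      _ ≤ s q * ρ x := by linarith
  have h5 := Finset.sum_le_card_nsmul _ _ _ h2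
  refine h5.trans ?_
  rw [nsmul_eq_mul]
  have h6 : (((net q).filter fun p => dist p x ≤ 4 * t).card : ℝ) ≤ M := by
    exact_mod_cast count_le h hn hq' x
  have h7 : 0 ≤ s q * ρ x := mul_nonneg (h.s_nonneg q) (h.nonneg x)
  calc (((net q).filter fun p => dist p x ≤ 4 * t).card : ℝ) * (s q * ρ x)
      ≤ M * (s q * ρ x) := mul_le_mul_of_nonneg_right h6 h7
    _ = s q * (M * ρ x) := by ring

/-- lower bound of the weighted combination when classes of weight less than `b` are ignored -/
theorem comb_cut {w : ℕ → ℝ} (hw : ∀ q, 0 ≤ w q) {b : ℝ} (hb : 0 ≤ b) (x : E) :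
    b * (comb η n net R ρ s x
        - M * (∑ q ∈ (Finset.range n).filter (fun q => w q < b), s q) * ρ x)
      ≤ comb η n net R ρ (fun q => s q * w q) x := by
  classical
  have h0 : ∀ q, 0 ≤ ∑ p ∈ net q, (s q * (ρ p / 2)) * ker η p (R q p) x := fun q =>
    Finset.sum_nonneg fun p _ => mul_nonneg (mul_nonneg (h.s_nonneg q)
      (by linarith [h.nonneg p])) (ker_nonneg h.kernel _ _ _)
  have h1 : comb η n net R ρ (fun q => s q * w q) x = ∑ q ∈ Finset.range n,
      w q * ∑ p ∈ net q, (s q * (ρ p / 2)) * ker η p (R q p) x := by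
    unfold comb
    refine Finset.sum_congr rfl fun q _ => ?_
    rw [Finset.mul_sum]
    refine Finset.sum_congr rfl fun p _ => ?_
    ring
  rw [h1]
  have h2 : ∀ q ∈ Finset.range n,
      b * (∑ p ∈ net q, (s q * (ρ p / 2)) * ker η p (R q p) x)
        - (if w q < b then b * (s q * (M * ρ x)) else 0)
      ≤ w q * ∑ p ∈ net q, (s q * (ρ p / 2)) * ker η p (R q p) x := by
    intro q hq
    split_ifs with hqb
    · have h3 := mul_le_mul_of_nonneg_left (class_le h hn (Finset.mem_range.1 hq) x) hb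
      have h4 := mul_nonneg (hw q) (h0 q)
      linarith
    · have h3 := mul_le_mul_of_nonneg_right (not_lt.1 hqb) (h0 q)
      linarith
  refine le_trans (le_of_eq ?_) (Finset.sum_le_sum h2)
  rw [Finset.sum_sub_distrib, ← Finset.mul_sum, ← Finset.sum_filter, ← Finset.mul_sum,
    ← Finset.sum_mul]
  unfold comb
  ring

/-- The new function is log-Lipschitz at scale `t`. -/
theorem loglip_step : LogLip Ω t (fun x => ρ x - comb η n net R ρ s x) := by
  classical
  intro x hx y hy hxy
  have ht := h.ht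
  have hM : (0 : ℝ) < M := by exact_mod_cast h.hM
  have hK := h.kernel.one_le
  have hd : 0 ≤ dist x y / t := div_nonneg dist_nonneg ht.le
  have h1 := h.loglip x hx y hy (by linarith)
  -- the difference of the combinations
  have hinner : ∀ q ∈ Finset.range n,
      |∑ p ∈ net q, (s q * (ρ p / 2)) * (ker η p (R q p) x - ker η p (R q p) y)|
        ≤ s q * ((2 * M) * (3 / 4 * ρ y * (K * (dist x y / (2 * t))))) := by
    intro q hq
    have hq' : q < n := Finset.mem_range.1 hq
    let A : Finset E := (net q).filter fun p => dist p x ≤ 4 * t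
    let B : Finset E := (net q).filter fun p => dist p y ≤ 4 * t
    have h2 : ∑ p ∈ net q, (s q * (ρ p / 2)) * (ker η p (R q p) x - ker η p (R q p) y)
        = ∑ p ∈ A ∪ B, (s q * (ρ p / 2)) * (ker η p (R q p) x - ker η p (R q p) y) := by
      symm
      refine Finset.sum_subset ?_ ?_
      · exact Finset.union_subset (Finset.filter_subset _ _) (Finset.filter_subset _ _)
      · intro p hp hpn
        rw [Finset.mem_union, not_or] at hpn
        have hx' : 4 * t < dist p x := by
          by_contra hc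
          exact hpn.1 (Finset.mem_filter.2 ⟨hp, not_lt.1 hc⟩)
        have hy' : 4 * t < dist p y := by
          by_contra hc
          exact hpn.2 (Finset.mem_filter.2 ⟨hp, not_lt.1 hc⟩)
        rw [ker_zero_of_far h hn hq' hp hx', ker_zero_of_far h hn hq' hp hy']
        ring
    rw [h2]
    have h3 : ∀ p ∈ A ∪ B,
        |(s q * (ρ p / 2)) * (ker η p (R q p) x - ker η p (R q p) y)|
          ≤ s q * (3 / 4 * ρ y * (K * (dist x y / (2 * t)))) := by
      intro p hp
      have hpnet : p ∈ net q := by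
        rcases Finset.mem_union.1 hp with hp | hp
        · exact (Finset.mem_filter.1 hp).1
        · exact (Finset.mem_filter.1 hp).1
      have hpy : dist p y ≤ 8 * t := by
        rcases Finset.mem_union.1 hp with hp | hp
        · have := (Finset.mem_filter.1 hp).2
          linarith [dist_triangle p x y]
        · have := (Finset.mem_filter.1 hp).2
          linarith
      have hpG := hn.mem q hq' p hpnet
      have hpD := h.hG q hq' hpG
      have hpΩ : p ∈ Ω := h.sub p hpD (mem_closedBall_self (by linarith))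
      have hR := h.hR q hq' p hpG
      have h4 : ρ p ≤ 3 / 2 * ρ y := by
        have h5 := h.loglip p hpΩ y hy (by linarith)
        have h6 : dist p y / (2 * t) ≤ 4 := by
          rw [div_le_iff₀ (by linarith)]
          linarith
        have h7 : (1 / 8 : ℝ) * (dist p y / (2 * t)) * ρ y ≤ 1 / 2 * ρ y := by
          refine mul_le_mul_of_nonneg_right ?_ (h.nonneg y)
          linarith
        have h8 := le_abs_self (ρ p - ρ y)
        linarith
      have h9 : |ker η p (R q p) x - ker η p (R q p) y| ≤ K * (dist x y / (2 * t)) := by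
        refine (ker_lip h.kernel (by linarith) x y).trans ?_
        refine mul_le_mul_of_nonneg_left ?_ (by linarith)
        exact div_le_div_of_nonneg_left dist_nonneg (by linarith) hR.1
      rw [abs_mul, abs_of_nonneg (mul_nonneg (h.s_nonneg q) (by linarith [h.nonneg p]))]
      calc s q * (ρ p / 2) * |ker η p (R q p) x - ker η p (R q p) y|
          ≤ s q * (3 / 4 * ρ y) * (K * (dist x y / (2 * t))) := by
            refine mul_le_mul ?_ h9 (abs_nonneg _) ?_
            · exact mul_le_mul_of_nonneg_left (by linarith) (h.s_nonneg q)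
            · exact mul_nonneg (h.s_nonneg q) (by linarith [h.nonneg y])
        _ = s q * (3 / 4 * ρ y * (K * (dist x y / (2 * t)))) := by ring
    have h10 : ((A ∪ B).card : ℝ) ≤ 2 * M := by
      have h11 := Finset.card_union_le A B
      have h12 := count_le h hn hq' x
      have h13 := count_le h hn hq' y
      have h14 : (A ∪ B).card ≤ 2 * M := by
        have : A.card ≤ M := h12
        have : B.card ≤ M := h13
        omega
      exact_mod_cast h14
    have h15 : 0 ≤ s q * (3 / 4 * ρ y * (K * (dist x y / (2 * t)))) := by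
      refine mul_nonneg (h.s_nonneg q) (mul_nonneg (by linarith [h.nonneg y]) ?_)
      exact mul_nonneg (by linarith) (div_nonneg dist_nonneg (by linarith))
    calc |∑ p ∈ A ∪ B, (s q * (ρ p / 2)) * (ker η p (R q p) x - ker η p (R q p) y)|
        ≤ ∑ p ∈ A ∪ B, |(s q * (ρ p / 2)) * (ker η p (R q p) x - ker η p (R q p) y)| :=
          Finset.abs_sum_le_sum_abs _ _
      _ ≤ (A ∪ B).card • (s q * (3 / 4 * ρ y * (K * (dist x y / (2 * t))))) :=
          Finset.sum_le_card_nsmul _ _ _ h3
      _ = ((A ∪ B).card : ℝ) * (s q * (3 / 4 * ρ y * (K * (dist x y / (2 * t))))) := by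
          rw [nsmul_eq_mul]
      _ ≤ (2 * M) * (s q * (3 / 4 * ρ y * (K * (dist x y / (2 * t))))) :=
          mul_le_mul_of_nonneg_right h10 h15
      _ = s q * ((2 * M) * (3 / 4 * ρ y * (K * (dist x y / (2 * t))))) := by ring
  have hdiff : |comb η n net R ρ s x - comb η n net R ρ s y|
      ≤ (∑ q ∈ Finset.range n, s q) * ((2 * M) * (3 / 4 * ρ y * (K * (dist x y / (2 * t))))) := by
    have h2 : comb η n net R ρ s x - comb η n net R ρ s y = ∑ q ∈ Finset.range n,
        ∑ p ∈ net q, (s q * (ρ p / 2)) * (ker η p (R q p) x - ker η p (R q p) y) := by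
      unfold comb
      rw [← Finset.sum_sub_distrib]
      refine Finset.sum_congr rfl fun q _ => ?_
      rw [← Finset.sum_sub_distrib]
      refine Finset.sum_congr rfl fun p _ => ?_
      ring
    rw [h2, Finset.sum_mul]
    exact (Finset.abs_sum_le_sum_abs _ _).trans (Finset.sum_le_sum hinner)
  have hS : 0 ≤ ∑ q ∈ Finset.range n, s q := Finset.sum_nonneg fun q _ => h.s_nonneg q
  have hdiff2 : |comb η n net R ρ s x - comb η n net R ρ s y| ≤ 3 / 256 * (dist x y / t) * ρ y := by
    refine hdiff.trans ?_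
    have h3 := h.s_sum
    have h4 : 0 ≤ (dist x y / t) * ρ y := mul_nonneg hd (h.nonneg y)
    have h5 := mul_le_mul_of_nonneg_right h3 h4
    have h6 : dist x y / (2 * t) = dist x y / t / 2 := by
      field_simp
    rw [h6]
    nlinarith
  have hcy := comb_le h hn y
  have h20 : |ρ x - comb η n net R ρ s x - (ρ y - comb η n net R ρ s y)|
      ≤ |ρ x - ρ y| + |comb η n net R ρ s x - comb η n net R ρ s y| := by
    have : ρ x - comb η n net R ρ s x - (ρ y - comb η n net R ρ s y)
        = (ρ x - ρ y) - (comb η n net R ρ s x - comb η n net R ρ s y) := by ring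
    rw [this]
    exact abs_sub _ _
  have h21 : dist x y / (2 * t) = dist x y / t / 2 := by
    field_simp
  rw [h21] at h1
  have h22 : 19 / 256 * (dist x y / t) * ρ y
      ≤ 1 / 8 * (dist x y / t) * (ρ y - comb η n net R ρ s y) := by
    have h23 : 19 / 256 * ρ y ≤ 1 / 8 * (ρ y - comb η n net R ρ s y) := by
      linarith [h.nonneg y]
    nlinarith
  calc |ρ x - comb η n net R ρ s x - (ρ y - comb η n net R ρ s y)|
      ≤ |ρ x - ρ y| + |comb η n net R ρ s x - comb η n net R ρ s y| := h20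
    _ ≤ 1 / 8 * (dist x y / t / 2) * ρ y + 3 / 256 * (dist x y / t) * ρ y := add_le_add h1 hdiff2
    _ = 19 / 256 * (dist x y / t) * ρ y := by ring
    _ ≤ _ := h22

/-- lower bound of the combination at centres of class `q` -/
theorem comb_lower {a : ℕ → ℝ} (ha : ∀ q, 0 ≤ a q) {q : ℕ} (hq : q < n) {x : E} (hx : x ∈ G q) :
    c₀ / 4 * a q * ρ x ≤ comb η n net R ρ a x := by
  classical
  have ht := h.ht
  obtain ⟨p, hp, hpx⟩ := hn.near q hq x hx
  have hpG := hn.mem q hq p hp
  have hpD := h.hG q hq hpG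
  have hpΩ : p ∈ Ω := h.sub p hpD (mem_closedBall_self (by linarith))
  have hxΩ : x ∈ Ω := h.sub p hpD (by rw [mem_closedBall]; linarith)
  have hR := h.hR q hq p hpG
  have h1 : c₀ ≤ ker η p (R q p) x := ker_lower h.kernel (by linarith) (by linarith)
  have h2 : ρ x ≤ 17 / 16 * ρ p := by
    have h5 := h.loglip x hxΩ p hpΩ (by linarith)
    have h6 : dist x p / (2 * t) ≤ 1 / 2 := by
      rw [div_le_iff₀ (by linarith)]
      linarith
    have h7 : (1 / 8 : ℝ) * (dist x p / (2 * t)) * ρ p ≤ 1 / 16 * ρ p := by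
      refine mul_le_mul_of_nonneg_right ?_ (h.nonneg p)
      linarith
    have h8 := le_abs_self (ρ x - ρ p)
    linarith
  have h3 : c₀ / 4 * a q * ρ x ≤ (a q * (ρ p / 2)) * ker η p (R q p) x := by
    have h4 : ρ x / 4 ≤ ρ p / 2 := by linarith [h.nonneg p]
    have h5 : a q * (ρ x / 4) ≤ a q * (ρ p / 2) := mul_le_mul_of_nonneg_left h4 (ha q)
    have h6 : 0 ≤ a q * (ρ x / 4) := mul_nonneg (ha q) (by linarith [h.nonneg x])
    calc c₀ / 4 * a q * ρ x = (a q * (ρ x / 4)) * c₀ := by ring
      _ ≤ (a q * (ρ p / 2)) * ker η p (R q p) x :=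
          mul_le_mul h5 h1 h.kernel.pos.le (h6.trans h5)
  refine h3.trans ?_
  have h7 : (a q * (ρ p / 2)) * ker η p (R q p) x
      ≤ ∑ p ∈ net q, (a q * (ρ p / 2)) * ker η p (R q p) x :=
    Finset.single_le_sum (f := fun p => (a q * (ρ p / 2)) * ker η p (R q p) x)
      (fun p' _ => mul_nonneg (mul_nonneg (ha q) (by linarith [h.nonneg p']))
        (ker_nonneg h.kernel _ _ _)) hp
  refine h7.trans ?_
  unfold comb
  exact Finset.single_le_sum (f := fun q => ∑ p ∈ net q, (a q * (ρ p / 2)) * ker η p (R q p) x)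
    (fun q' _ => Finset.sum_nonneg fun p' _ => mul_nonneg (mul_nonneg (ha q')
      (by linarith [h.nonneg p'])) (ker_nonneg h.kernel _ _ _)) (Finset.mem_range.2 hq)

end step

end Vale.Agent.P214.EX
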