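import Vale.Agent.P214.EX.Total

/-! The budget in terms of the integral over all radii, and continuity in the radius. -/

open MeasureTheory Set Filter Topology Metric

namespace Vale.Agent.P214.EX

/-- in a dyadic window there is a radius at which `Y` is at least its logarithmic mean -/
theorem exists_large {Y : ℝ → ℝ} {a : ℝ} (ha : 0 < a)
    (hY : IntervalIntegrable (fun r => Y r / r) volume a (2 * a)) :
    ∃ r, a ≤ r ∧ r ≤ 2 * a ∧ (∫ r in a..(2 * a), Y r / r) ≤ Real.log 2 * Y r := by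
  by_contra hcon
  push Not at hcon
  set S : ℝ := ∫ r in a..(2 * a), Y r / r with hS
  have hlog : 0 < Real.log 2 := Real.log_pos (by norm_num)
  have hinv : IntervalIntegrable (fun r : ℝ => r⁻¹) volume a (2 * a) := by
    refine intervalIntegral.intervalIntegrable_inv (fun x hx => ?_) continuousOn_id
    rw [uIcc_of_le (by linarith)] at hx
    exact (lt_of_lt_of_le ha hx.1).ne'
  have hinvint : ∫ r in a..(2 * a), r⁻¹ = Real.log 2 := by
    rw [integral_inv_of_pos ha (by linarith)]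
    congr 1
    field_simp
  have h1 : 0 < ∫ r in a..(2 * a), (S / Real.log 2 * r⁻¹ - Y r / r) := by
    refine intervalIntegral.intervalIntegral_pos_of_pos_on ((hinv.const_mul _).sub hY) ?_
      (by linarith)
    intro r hr
    have hr0 : 0 < r := ha.trans hr.1
    have h2 := hcon r hr.1.le hr.2.le
    have h3 : Y r < S / Real.log 2 := by
      rw [lt_div_iff₀ hlog]
      linarith
    have h4 : Y r / r < S / Real.log 2 * r⁻¹ := by
      rw [div_eq_mul_inv]
      exact mul_lt_mul_of_pos_right h3 (inv_pos.2 hr0)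
    linarith
  rw [intervalIntegral.integral_sub (hinv.const_mul _) hY, intervalIntegral.integral_const_mul,
    hinvint, div_mul_cancel₀ _ hlog.ne', ← hS, sub_self] at h1
  exact lt_irrefl _ h1

/-- decomposition of the integral over `[t₀ / 2 ^ (J-1), 2 t₀]` into dyadic windows -/
theorem integral_windows {Y : ℝ → ℝ} {t₀ : ℝ} (ht : 0 < t₀)
    (hY : ∀ a, 0 < a → IntervalIntegrable (fun r => Y r / r) volume a (2 * t₀)) (J : ℕ) :
    ∫ r in (2 * (t₀ / 2 ^ J))..(2 * t₀), Y r / r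
      = ∑ i ∈ Finset.range J, ∫ r in (t₀ / 2 ^ i)..(2 * (t₀ / 2 ^ i)), Y r / r := by
  induction J with
  | zero => simp
  | succ J ih =>
    rw [Finset.sum_range_succ, ← ih]
    have h1 : 2 * (t₀ / 2 ^ (J + 1)) = t₀ / 2 ^ J := by
      rw [pow_succ]; field_simp
    rw [h1, add_comm]
    symm
    have hT : 0 < t₀ / 2 ^ J := by positivity
    exact intervalIntegral.integral_add_adjacent_intervals
      ((hY _ hT).trans (hY _ (by positivity)).symm) (hY _ (by positivity))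

variable {E : Type*} [NormedAddCommGroup E] [NormedSpace ℝ E] [FiniteDimensional ℝ E]
  [MeasurableSpace E] [BorelSpace E]

section

variable {η : E → ℝ} {K c₀ : ℝ} {M : ℕ} {D Ω : Set E} {adm : ℕ → Set E} {t₀ : ℝ} {φ : E → ℝ}
  {lam₁ lam₂ ν : Measure E}

/-- **Budget at a point, integral form.** `Y r` is the negativity at radius `r`. -/
theorem Total.budget_integral {κ : ℝ} {ρ N : ℕ → E → ℝ}
    (h : Total η c₀ κ M D Ω adm t₀ φ lam₁ lam₂ ν ρ N) (hη : IsKernel η K c₀) (ht : 0 < t₀)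
    (hκ0 : 0 < κ) (hκ1 : κ ≤ 1) {x : E} (hx : x ∈ D) {J : ℕ} (hadm : ∀ i < J, x ∈ adm i)
    (Y : ℝ → ℝ) (hY1 : ∀ r, Y r ≤ 1)
    (hYint : ∀ a, 0 < a → IntervalIntegrable (fun r => Y r / r) volume a (2 * t₀))
    (hY : ∀ r, 0 < r → r ≤ 2 * t₀ → 0 < Y r →
      Lam lam₁ lam₂ (ker η x r) ≤ -(Y r * ∫ y, ker η x r y ∂ν))
    {B : ℝ} (hB : 8 ≤ c₀ / 4 * κ * B)
    (hJ : Real.log 2 * (16 * B + 2) ≤ ∫ r in (2 * (t₀ / 2 ^ J))..(2 * t₀), Y r / r) :
    (c₀ / 4 * κ * B) ^ 2 / 64 * ρ J x ≤ ∑ i ∈ Finset.range J, N i x := by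
  classical
  have hlog : 0 < Real.log 2 := Real.log_pos (by norm_num)
  have hT : ∀ i : ℕ, 0 < t₀ / 2 ^ i := fun i => by positivity
  have hTle : ∀ i : ℕ, t₀ / 2 ^ i ≤ t₀ := fun i => div_le_self ht.le (one_le_pow₀ (by norm_num))
  have hex : ∀ i : ℕ, ∃ r, t₀ / 2 ^ i ≤ r ∧ r ≤ 2 * (t₀ / 2 ^ i) ∧
      (∫ r in (t₀ / 2 ^ i)..(2 * (t₀ / 2 ^ i)), Y r / r) ≤ Real.log 2 * Y r := by
    intro i
    refine exists_large (hT i) ?_
    exact (hYint _ (hT i)).trans (hYint _ (by have := hT i; linarith)).symm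
  choose r hr1 hr2 hr3 using hex
  refine h.budget hη hκ0 hκ1 hx (fun i => if i < J then Y (r i) else 0) (fun i => ?_)
    (fun i hi => ?_) hB ?_
  · show (if i < J then Y (r i) else 0) ≤ 1
    split_ifs
    · exact hY1 _
    · norm_num
  · have hi' : 0 < (if i < J then Y (r i) else 0) := hi
    show x ∈ adm i ∧ ∃ r', t₀ / 2 ^ i ≤ r' ∧ r' ≤ 2 * (t₀ / 2 ^ i) ∧
      Lam lam₁ lam₂ (ker η x r') ≤ -((if i < J then Y (r i) else 0) * ∫ y, ker η x r' y ∂ν)
    split_ifs at hi' ⊢ with hiJ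
    · refine ⟨hadm i hiJ, r i, hr1 i, hr2 i, ?_⟩
      exact hY (r i) (lt_of_lt_of_le (hT i) (hr1 i)) (by linarith [hr2 i, hTle i]) hi'
    · exact absurd hi' (lt_irrefl _)
  · rw [integral_windows ht hYint] at hJ
    have h1 : ∑ i ∈ Finset.range J, ∫ r in (t₀ / 2 ^ i)..(2 * (t₀ / 2 ^ i)), Y r / r
        ≤ ∑ i ∈ Finset.range J, Real.log 2 * Y (r i) := Finset.sum_le_sum fun i _ => hr3 i
    rw [← Finset.mul_sum] at h1
    have h2 : ∑ i ∈ Finset.range J, (if i < J then Y (r i) else 0)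
        = ∑ i ∈ Finset.range J, Y (r i) :=
      Finset.sum_congr rfl fun i hi => by rw [if_pos (Finset.mem_range.1 hi)]
    rw [h2]
    exact le_of_mul_le_mul_left (hJ.trans h1) hlog

/-- continuity of the kernel integrals in the radius -/
theorem continuousOn_integral_ker (hη : IsKernel η K c₀) (μ : Measure E) [IsFiniteMeasure μ]
    (x : E) : ContinuousOn (fun r : ℝ => ∫ y, ker η x r y ∂μ) (Ioi 0) := by
  intro r hr
  refine ContinuousAt.continuousWithinAt ?_
  refine MeasureTheory.continuousAt_of_dominated (bound := fun _ => (1 : ℝ)) ?_ ?_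
    (integrable_const 1) ?_
  · exact Filter.Eventually.of_forall fun r => (ker_continuous hη x r).aestronglyMeasurable
  · refine Filter.Eventually.of_forall fun r => Filter.Eventually.of_forall fun y => ?_
    rw [Real.norm_of_nonneg (ker_nonneg hη x r y)]
    exact ker_le_one hη x r y
  · refine Filter.Eventually.of_forall fun y => ?_
    unfold ker
    have h1 : ContinuousAt (fun r : ℝ => r⁻¹ • (y - x)) r :=
      (continuousAt_inv₀ (ne_of_gt hr)).smul continuousAt_const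
    exact hη.continuous.continuousAt.comp h1

theorem continuousOn_Lam_ker [IsFiniteMeasure lam₁] [IsFiniteMeasure lam₂]
    (hη : IsKernel η K c₀) (x : E) :
    ContinuousOn (fun r : ℝ => Lam lam₁ lam₂ (ker η x r)) (Ioi 0) := by
  unfold Lam
  exact (continuousOn_integral_ker hη lam₁ x).sub (continuousOn_integral_ker hη lam₂ x)

/-- the truncated negativity at the point `x` and radius `r` -/
noncomputable def Xneg (η : E → ℝ) (lam₁ lam₂ ν : Measure E) (x : E) (r : ℝ) : ℝ :=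
  min 1 (max 0 (-(Lam lam₁ lam₂ (ker η x r)) / ∫ y, ker η x r y ∂ν))

theorem Xneg_le_one (x : E) (r : ℝ) : Xneg η lam₁ lam₂ ν x r ≤ 1 := min_le_left _ _

theorem Xneg_nonneg (x : E) (r : ℝ) : 0 ≤ Xneg η lam₁ lam₂ ν x r :=
  le_min zero_le_one (le_max_left _ _)

theorem Lam_le_of_Xneg_pos (hη : IsKernel η K c₀) {x : E} {r : ℝ}
    (h : 0 < Xneg η lam₁ lam₂ ν x r) :
    Lam lam₁ lam₂ (ker η x r) ≤ -(Xneg η lam₁ lam₂ ν x r * ∫ y, ker η x r y ∂ν) := by
  have h0 : 0 ≤ ∫ y, ker η x r y ∂ν := integral_nonneg fun y => ker_nonneg hη x r y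
  have h1 : 0 < max 0 (-(Lam lam₁ lam₂ (ker η x r)) / ∫ y, ker η x r y ∂ν) :=
    lt_of_lt_of_le h (min_le_right _ _)
  have h2 : 0 < -(Lam lam₁ lam₂ (ker η x r)) / ∫ y, ker η x r y ∂ν := by
    rcases lt_max_iff.1 h1 with h3 | h3
    · exact absurd h3 (lt_irrefl _)
    · exact h3
  have h3 : ∫ y, ker η x r y ∂ν ≠ 0 := by
    intro h4
    rw [h4, div_zero] at h2
    exact lt_irrefl _ h2
  have h4 : 0 < ∫ y, ker η x r y ∂ν := lt_of_le_of_ne h0 (Ne.symm h3)
  have h5 : Xneg η lam₁ lam₂ ν x r ≤ -(Lam lam₁ lam₂ (ker η x r)) / ∫ y, ker η x r y ∂ν := by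
    unfold Xneg
    rw [max_eq_right h2.le]
    exact min_le_right _ _
  rw [le_div_iff₀ h4] at h5
  linarith

theorem le_Lam_of_Xneg_lt_one {x : E} {r : ℝ}
    (h0 : 0 < ∫ y, ker η x r y ∂ν) (h : Xneg η lam₁ lam₂ ν x r < 1) :
    -(Xneg η lam₁ lam₂ ν x r * ∫ y, ker η x r y ∂ν) ≤ Lam lam₁ lam₂ (ker η x r) := by
  have h1 : -(Lam lam₁ lam₂ (ker η x r)) / ∫ y, ker η x r y ∂ν ≤ Xneg η lam₁ lam₂ ν x r := by
    unfold Xneg at h ⊢
    rw [min_lt_iff] at h
    rcases h with h | h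
    · exact absurd h (lt_irrefl _)
    · rw [min_eq_right h.le]
      exact le_max_right _ _
  rw [div_le_iff₀ h0] at h1
  linarith

theorem continuousOn_Xneg [IsFiniteMeasure lam₁] [IsFiniteMeasure lam₂] [IsFiniteMeasure ν]
    (hη : IsKernel η K c₀) {x : E} (hpos : ∀ r, 0 < r → 0 < ∫ y, ker η x r y ∂ν) :
    ContinuousOn (fun r : ℝ => Xneg η lam₁ lam₂ ν x r) (Ioi 0) := by
  unfold Xneg
  exact ContinuousOn.inf continuousOn_const (ContinuousOn.sup continuousOn_const
    ((continuousOn_Lam_ker hη x).neg.div (continuousOn_integral_ker hη ν x)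
    fun r hr => (hpos r hr).ne'))

theorem intervalIntegrable_Xneg [IsFiniteMeasure lam₁] [IsFiniteMeasure lam₂] [IsFiniteMeasure ν]
    (hη : IsKernel η K c₀) {x : E} (hpos : ∀ r, 0 < r → 0 < ∫ y, ker η x r y ∂ν) {a b : ℝ}
    (ha : 0 < a) (hb : 0 < b) :
    IntervalIntegrable (fun r => Xneg η lam₁ lam₂ ν x r / r) volume a b := by
  refine ContinuousOn.intervalIntegrable ?_
  have hsub : uIcc a b ⊆ Ioi 0 := by
    intro r hr
    exact lt_of_lt_of_le (lt_min ha hb) hr.1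
  exact ((continuousOn_Xneg hη hpos).div continuousOn_id fun r hr => ne_of_gt hr).mono hsub

/-- no positivity of the denominators is needed for integrability -/
theorem intervalIntegrable_Xneg' [IsFiniteMeasure lam₁] [IsFiniteMeasure lam₂]
    [IsFiniteMeasure ν] (hη : IsKernel η K c₀) (x : E) {a b : ℝ} (ha : 0 < a) (hb : 0 < b) :
    IntervalIntegrable (fun r => Xneg η lam₁ lam₂ ν x r / r) volume a b := by
  have hsub : Set.uIoc a b ⊆ Ioi 0 := by
    intro r hr
    exact lt_trans (lt_min ha hb) hr.1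
  have hm1 : AEMeasurable (fun r : ℝ => Lam lam₁ lam₂ (ker η x r))
      (volume.restrict (Set.uIoc a b)) :=
    (((continuousOn_Lam_ker hη x).mono hsub).aestronglyMeasurable
      measurableSet_uIoc).aemeasurable
  have hm2 : AEMeasurable (fun r : ℝ => ∫ y, ker η x r y ∂ν) (volume.restrict (Set.uIoc a b)) :=
    (((continuousOn_integral_ker hη ν x).mono hsub).aestronglyMeasurable
      measurableSet_uIoc).aemeasurable
  have hm3 : AEMeasurable (fun r : ℝ => Xneg η lam₁ lam₂ ν x r / r)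
      (volume.restrict (Set.uIoc a b)) := by
    unfold Xneg
    exact ((aemeasurable_const.min (aemeasurable_const.max (hm1.neg.div hm2))).div
      aemeasurable_id)
  rw [intervalIntegrable_iff]
  refine IntegrableOn.of_bound ?_ hm3.aestronglyMeasurable (1 / min a b) ?_
  · rw [Set.uIoc, Real.volume_Ioc]
    exact ENNReal.ofReal_lt_top
  · refine (ae_restrict_iff' measurableSet_uIoc).2 (Filter.Eventually.of_forall fun r hr => ?_)
    have hr0 : 0 < r := hsub hr
    have hmin : 0 < min a b := lt_min ha hb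
    rw [Real.norm_eq_abs, abs_of_nonneg (div_nonneg (Xneg_nonneg x r) hr0.le)]
    exact div_le_div₀ zero_le_one (Xneg_le_one x r) hmin hr.1.le

/-- **The alternative at a point for finitely many levels**, without positivity. -/
theorem Total.alternative_fin [IsFiniteMeasure lam₁] [IsFiniteMeasure lam₂] [IsFiniteMeasure ν]
    {κ : ℝ} {ρ N : ℕ → E → ℝ}
    (h : Total η c₀ κ M D Ω adm t₀ φ lam₁ lam₂ ν ρ N) (hη : IsKernel η K c₀) (ht : 0 < t₀)
    (hκ0 : 0 < κ) (hκ1 : κ ≤ 1) {x : E} (hx : x ∈ D) {J : ℕ} (hadm : ∀ i < J, x ∈ adm i)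
    {B : ℝ} (hB : 8 ≤ c₀ / 4 * κ * B) :
    (c₀ / 4 * κ * B) ^ 2 / 64 * ρ J x ≤ ∑ i ∈ Finset.range J, N i x ∨
      ∫ r in (2 * (t₀ / 2 ^ J))..(2 * t₀), Xneg η lam₁ lam₂ ν x r / r
        ≤ Real.log 2 * (16 * B + 2) := by
  by_cases hJ : ∫ r in (2 * (t₀ / 2 ^ J))..(2 * t₀), Xneg η lam₁ lam₂ ν x r / r
      ≤ Real.log 2 * (16 * B + 2)
  · exact Or.inr hJ
  · left
    push Not at hJ
    exact h.budget_integral hη ht hκ0 hκ1 hx hadm (fun r => Xneg η lam₁ lam₂ ν x r)
      (fun r => Xneg_le_one x r)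
      (fun a ha => intervalIntegrable_Xneg' hη x ha (by linarith))
      (fun r _ _ hr => Lam_le_of_Xneg_pos hη hr) hB hJ.le

/-- **The alternative at a point**: either the allotted negativity is at least `Kb` times the final
function, or the total truncated negativity over the admissible levels is at most `B'`. -/
theorem Total.alternative [IsFiniteMeasure lam₁] [IsFiniteMeasure lam₂] [IsFiniteMeasure ν]
    {κ : ℝ} {ρ N : ℕ → E → ℝ}
    (h : Total η c₀ κ M D Ω adm t₀ φ lam₁ lam₂ ν ρ N) (hη : IsKernel η K c₀) (ht : 0 < t₀)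
    (hκ0 : 0 < κ) (hκ1 : κ ≤ 1) {x : E} (hx : x ∈ D)
    (hpos : ∀ r, 0 < r → 0 < ∫ y, ker η x r y ∂ν)
    {B : ℝ} (hB : 8 ≤ c₀ / 4 * κ * B) :
    (c₀ / 4 * κ * B) ^ 2 / 64 * rhoLim ρ x ≤ negLim N x ∨
      ∀ J : ℕ, (∀ i < J, x ∈ adm i) →
        ∫ r in (2 * (t₀ / 2 ^ J))..(2 * t₀), Xneg η lam₁ lam₂ ν x r / r
          ≤ Real.log 2 * (16 * B + 2) := by
  by_cases hcase : ∀ J : ℕ, (∀ i < J, x ∈ adm i) →
      ∫ r in (2 * (t₀ / 2 ^ J))..(2 * t₀), Xneg η lam₁ lam₂ ν x r / r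
        ≤ Real.log 2 * (16 * B + 2)
  · exact Or.inr hcase
  · left
    push Not at hcase
    obtain ⟨J, hadm, hJ⟩ := hcase
    have h1 := h.budget_integral hη ht hκ0 hκ1 hx hadm (fun r => Xneg η lam₁ lam₂ ν x r)
      (fun r => Xneg_le_one x r)
      (fun a ha => intervalIntegrable_Xneg hη hpos ha (by linarith))
      (fun r _ _ hr => Lam_le_of_Xneg_pos hη hr) hB hJ.le
    have h2 := rhoLim_le h.good x J
    have h3 := sum_N_le_negLim wt_le_one h.good h.step x (Finset.range J)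
    refine le_trans ?_ (h1.trans h3)
    exact mul_le_mul_of_nonneg_left h2 (by positivity)

end

end Vale.Agent.P214.EX
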