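import Vale.Agent.P214.EX.Step

/-! Iteration of the levels of the exhaustion and the total inequality. -/

open MeasureTheory Set Filter Topology Metric

namespace Vale.Agent.P214.EX

variable {E : Type*} [NormedAddCommGroup E] [NormedSpace ℝ E] [FiniteDimensional ℝ E]
  [MeasurableSpace E] [BorelSpace E]

/-- the signed functional `∫ · dλ₁ - ∫ · dλ₂` -/
noncomputable def Lam (lam₁ lam₂ : Measure E) (f : E → ℝ) : ℝ := (∫ x, f x ∂lam₁) - ∫ x, f x ∂lam₂

/-- Data of the exhaustion. At level `i` radii lie in `[T, 2T]`, `T = t₀ / 2 ^ i`; `G i q` is the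
set of centres of class `q` (negativity at least `w q`); `s q` is the step size of class `q`; at
level `i` the classes `q < n i` are used. -/
structure ExhHyp (η : E → ℝ) (K c₀ : ℝ) (M : ℕ) (D Ω : Set E) (t₀ : ℝ) (n : ℕ → ℕ)
    (G : ℕ → ℕ → Set E) (R : ℕ → ℕ → E → ℝ) (s w : ℕ → ℝ) (φ : E → ℝ)
    (lam₁ lam₂ ν : Measure E) : Prop where
  kernel : IsKernel η K c₀
  hM : 1 ≤ M
  packing : ∀ (s : Finset E) (x : E) (t : ℝ), 0 < t →
    (∀ c ∈ s, dist c x ≤ 4 * t) → (∀ c ∈ s, ∀ d ∈ s, c ≠ d → t ≤ dist c d) → s.card ≤ M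
  bdd : Bornology.IsBounded D
  sub : ∀ p ∈ D, closedBall p (2 * t₀) ⊆ Ω
  ht : 0 < t₀
  hG : ∀ i, ∀ q < n i, G i q ⊆ D
  hR : ∀ i, ∀ q < n i, ∀ p ∈ G i q, t₀ / 2 ^ i ≤ R i q p ∧ R i q p ≤ 2 * (t₀ / 2 ^ i)
  neg : ∀ i, ∀ q < n i, ∀ p ∈ G i q,
    Lam lam₁ lam₂ (ker η p (R i q p)) ≤ -(w q * ∫ x, ker η p (R i q p) x ∂ν)
  s_nonneg : ∀ q, 0 ≤ s q
  w_nonneg : ∀ q, 0 ≤ w q
  s_sum : ∀ i, (∑ q ∈ Finset.range (n i), s q) * (64 * M * K) ≤ 1
  cont : Continuous φ
  nonneg : ∀ x, 0 ≤ φ x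
  le_one : ∀ x, φ x ≤ 1
  loglip : LogLip Ω t₀ φ

/-- the relation between two consecutive levels -/
structure StepRel (c₀ : ℝ) (M : ℕ) (Ω : Set E) (t₀ : ℝ) (n : ℕ → ℕ) (G : ℕ → ℕ → Set E)
    (s w : ℕ → ℝ) (lam₁ lam₂ ν : Measure E) (i : ℕ) (ρ ρ' N : E → ℝ) : Prop where
  cont : Continuous N
  nonneg : ∀ x, 0 ≤ N x
  le : ∀ x, ρ' x ≤ ρ x
  ge : ∀ x, 63 / 64 * ρ x ≤ ρ' x
  off : ∀ x, x ∉ Ω → ρ' x = ρ x ∧ N x = 0
  far : ∀ x, (∀ q < n i, ∀ p ∈ G i q, 2 * (t₀ / 2 ^ i) ≤ dist p x) → ρ' x = ρ x ∧ N x = 0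
  cls : ∀ q < n i, ∀ x ∈ G i q,
    c₀ / 4 * (s q * w q) * ρ x ≤ N x ∧ ρ' x ≤ (1 - c₀ / 4 * s q) * ρ x
  lower : ∀ b : ℝ, (∀ q < n i, b ≤ w q) → ∀ x, b * (ρ x - ρ' x) ≤ N x
  lower_cut : ∀ b : ℝ, 0 ≤ b → ∀ x, b * (ρ x - ρ' x
    - M * (∑ q ∈ (Finset.range (n i)).filter (fun q => w q < b), s q) * ρ x) ≤ N x
  upper : ∀ b : ℝ, (∀ q < n i, w q ≤ b) → ∀ x, N x ≤ b * (ρ x - ρ' x)
  ineq : Lam lam₁ lam₂ ρ + ∫ x, N x ∂ν ≤ Lam lam₁ lam₂ ρ'

/-- the invariant of the iteration -/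
structure Good (Ω : Set E) (t₀ : ℝ) (φ : E → ℝ) (i : ℕ) (ρ : E → ℝ) : Prop where
  cont : Continuous ρ
  nonneg : ∀ x, 0 ≤ ρ x
  le : ∀ x, ρ x ≤ φ x
  loglip : LogLip Ω (t₀ / 2 ^ i) ρ

section

variable {η : E → ℝ} {K c₀ : ℝ} {M : ℕ} {D Ω : Set E} {t₀ : ℝ} {n : ℕ → ℕ}
  {G : ℕ → ℕ → Set E} {R : ℕ → ℕ → E → ℝ} {s w : ℕ → ℝ} {φ : E → ℝ}
  {lam₁ lam₂ ν : Measure E} [IsFiniteMeasure lam₁] [IsFiniteMeasure lam₂] [IsFiniteMeasure ν]

theorem integrable_of_bdd {μ : Measure E} [IsFiniteMeasure μ] {f : E → ℝ} (hf : Continuous f)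
    (C : ℝ) (hC : ∀ x, |f x| ≤ C) : Integrable f μ :=
  Integrable.of_bound hf.aestronglyMeasurable C
    (Filter.Eventually.of_forall fun x => by rw [Real.norm_eq_abs]; exact hC x)

theorem integrable_ker (hη : IsKernel η K c₀) (μ : Measure E) [IsFiniteMeasure μ] (p : E) (r : ℝ) :
    Integrable (ker η p r) μ :=
  integrable_of_bdd (ker_continuous hη p r) 1 fun x => by
    rw [abs_of_nonneg (ker_nonneg hη p r x)]
    exact ker_le_one hη p r x

theorem integral_comb (hη : IsKernel η K c₀) (μ : Measure E) [IsFiniteMeasure μ]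
    (k : ℕ) (net : ℕ → Finset E) (R : ℕ → E → ℝ) (ρ : E → ℝ) (a : ℕ → ℝ) :
    ∫ x, comb η k net R ρ a x ∂μ = ∑ q ∈ Finset.range k, ∑ p ∈ net q,
      (a q * (ρ p / 2)) * ∫ x, ker η p (R q p) x ∂μ := by
  unfold comb
  rw [integral_finset_sum]
  · refine Finset.sum_congr rfl fun q _ => ?_
    rw [integral_finset_sum]
    · refine Finset.sum_congr rfl fun p _ => ?_
      rw [integral_const_mul]
    · intro p _
      exact (integrable_ker hη μ p _).const_mul _
  · intro q _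
    exact integrable_finset_sum _ fun p _ => (integrable_ker hη μ p _).const_mul _

theorem Lam_sub {f g : E → ℝ} (hf1 : Integrable f lam₁) (hf2 : Integrable f lam₂)
    (hg1 : Integrable g lam₁) (hg2 : Integrable g lam₂) :
    Lam lam₁ lam₂ (fun x => f x - g x) = Lam lam₁ lam₂ f - Lam lam₁ lam₂ g := by
  unfold Lam
  rw [integral_sub hf1 hg1, integral_sub hf2 hg2]
  ring

theorem exists_step (h : ExhHyp η K c₀ M D Ω t₀ n G R s w φ lam₁ lam₂ ν) (i : ℕ) (ρ : E → ℝ)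
    (hρ : Good Ω t₀ φ i ρ) :
    ∃ ρ' N : E → ℝ, Good Ω t₀ φ (i + 1) ρ' ∧ StepRel c₀ M Ω t₀ n G s w lam₁ lam₂ ν i ρ ρ' N := by
  have h2 : (0 : ℝ) < 2 ^ i := by positivity
  have hT : 0 < t₀ / 2 ^ i := div_pos h.ht h2
  have hTle : t₀ / 2 ^ i ≤ t₀ := by
    rw [div_le_iff₀ h2]
    have : (1 : ℝ) ≤ 2 ^ i := one_le_pow₀ (by norm_num)
    nlinarith [h.ht]
  have hhalf : t₀ / 2 ^ (i + 1) = t₀ / 2 ^ i / 2 := by
    rw [pow_succ]
    field_simp
  have hL : LevelHyp η K c₀ M D Ω (t₀ / 2 ^ (i + 1)) (n i) (G i) (R i) s ρ :=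
    { kernel := h.kernel
      hM := h.hM
      packing := h.packing
      bdd := h.bdd
      sub := by
        intro p hp
        refine Subset.trans (closedBall_subset_closedBall ?_) (h.sub p hp)
        rw [hhalf]
        linarith
      ht := by rw [hhalf]; linarith
      hG := h.hG i
      hR := by
        intro q hq p hp
        have := h.hR i q hq p hp
        rw [hhalf]
        constructor <;> linarith
      s_nonneg := h.s_nonneg
      s_sum := h.s_sum i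
      cont := hρ.cont
      nonneg := hρ.nonneg
      loglip := by
        rw [hhalf, show 2 * (t₀ / 2 ^ i / 2) = t₀ / 2 ^ i by ring]
        exact hρ.loglip }
  obtain ⟨net, hn⟩ := exists_nets hL
  have hsw : ∀ q, 0 ≤ s q * w q := fun q => mul_nonneg (h.s_nonneg q) (h.w_nonneg q)
  refine ⟨fun x => ρ x - comb η (n i) net (R i) ρ s x,
    comb η (n i) net (R i) ρ (fun q => s q * w q), ?_, ?_⟩
  · refine ⟨hρ.cont.sub (comb_continuous hL hn s), fun x => ?_, fun x => ?_, loglip_step hL hn⟩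
    · have := comb_le hL hn x
      linarith [hρ.nonneg x]
    · have := comb_nonneg hL hn h.s_nonneg x
      linarith [hρ.le x]
  · have hbd : ∀ a : ℕ → ℝ, Integrable (comb η (n i) net (R i) ρ a) lam₁ ∧
        Integrable (comb η (n i) net (R i) ρ a) lam₂ ∧ Integrable (comb η (n i) net (R i) ρ a) ν := by
      intro a
      have : ∀ μ : Measure E, IsFiniteMeasure μ → Integrable (comb η (n i) net (R i) ρ a) μ := by
        intro μ hμ
        unfold comb
        exact integrable_finset_sum _ fun q _ => integrable_finset_sum _ fun p _ =>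
          (integrable_ker h.kernel μ p _).const_mul _
      exact ⟨this _ inferInstance, this _ inferInstance, this _ inferInstance⟩
    have hρint : ∀ μ : Measure E, IsFiniteMeasure μ → Integrable ρ μ := fun μ _ =>
      integrable_of_bdd hρ.cont 1 fun x => by
        rw [abs_of_nonneg (hρ.nonneg x)]
        exact (hρ.le x).trans (h.le_one x)
    refine ⟨comb_continuous hL hn _, comb_nonneg hL hn hsw, fun x => ?_, fun x => ?_,
      fun x hx => ?_, fun x hx => ?_, fun q hq x hx => ?_, fun b hb x => ?_, fun b hb x => ?_,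
      fun b hb x => ?_, ?_⟩
    · have := comb_nonneg hL hn h.s_nonneg x
      linarith
    · have := comb_le hL hn x
      linarith
    · exact ⟨by rw [comb_eq_zero hL hn hx, sub_zero], comb_eq_zero hL hn hx⟩
    · have hx' : ∀ q < n i, ∀ p ∈ G i q, 4 * (t₀ / 2 ^ (i + 1)) ≤ dist p x := by
        intro q hq p hp
        have := hx q hq p hp
        rw [hhalf]
        linarith
      exact ⟨by rw [comb_far hL hn hx', sub_zero], comb_far hL hn hx'⟩
    · refine ⟨comb_lower hL hn hsw hq hx, ?_⟩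
      have := comb_lower hL hn h.s_nonneg hq hx
      linarith
    · rw [sub_sub_cancel]
      unfold comb
      rw [Finset.mul_sum]
      refine Finset.sum_le_sum fun q hq => ?_
      rw [Finset.mul_sum]
      refine Finset.sum_le_sum fun p hp => ?_
      have h1 := hb q (Finset.mem_range.1 hq)
      have h3 : 0 ≤ s q * (ρ p / 2) * ker η p (R i q p) x :=
        mul_nonneg (mul_nonneg (h.s_nonneg q) (by linarith [hρ.nonneg p]))
          (ker_nonneg h.kernel _ _ _)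
      nlinarith
    · rw [sub_sub_cancel]
      exact comb_cut hL hn h.w_nonneg hb x
    · rw [sub_sub_cancel]
      unfold comb
      rw [Finset.mul_sum]
      refine Finset.sum_le_sum fun q hq => ?_
      rw [Finset.mul_sum]
      refine Finset.sum_le_sum fun p hp => ?_
      have h1 := hb q (Finset.mem_range.1 hq)
      have h3 : 0 ≤ s q * (ρ p / 2) * ker η p (R i q p) x :=
        mul_nonneg (mul_nonneg (h.s_nonneg q) (by linarith [hρ.nonneg p]))
          (ker_nonneg h.kernel _ _ _)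
      nlinarith
    · rw [Lam_sub (hρint _ inferInstance) (hρint _ inferInstance) (hbd s).1 (hbd s).2.1]
      have h5 : Lam lam₁ lam₂ (comb η (n i) net (R i) ρ s) ≤
          -∫ x, comb η (n i) net (R i) ρ (fun q => s q * w q) x ∂ν := by
        have h6 : Lam lam₁ lam₂ (comb η (n i) net (R i) ρ s) = ∑ q ∈ Finset.range (n i),
            ∑ p ∈ net q, (s q * (ρ p / 2)) * Lam lam₁ lam₂ (ker η p (R i q p)) := by
          unfold Lam
          rw [integral_comb h.kernel, integral_comb h.kernel, ← Finset.sum_sub_distrib]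
          refine Finset.sum_congr rfl fun q _ => ?_
          rw [← Finset.sum_sub_distrib]
          refine Finset.sum_congr rfl fun p _ => ?_
          ring
        rw [h6, integral_comb h.kernel, ← Finset.sum_neg_distrib]
        refine Finset.sum_le_sum fun q hq => ?_
        rw [← Finset.sum_neg_distrib]
        refine Finset.sum_le_sum fun p hp => ?_
        have hq' := Finset.mem_range.1 hq
        have h7 := h.neg i q hq' p (hn.mem q hq' p hp)
        have h8 : 0 ≤ s q * (ρ p / 2) := mul_nonneg (h.s_nonneg q) (by linarith [hρ.nonneg p])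
        have h9 := mul_le_mul_of_nonneg_left h7 h8
        calc s q * (ρ p / 2) * Lam lam₁ lam₂ (ker η p (R i q p))
            ≤ s q * (ρ p / 2) * -(w q * ∫ x, ker η p (R i q p) x ∂ν) := h9
          _ = -(s q * w q * (ρ p / 2) * ∫ x, ker η p (R i q p) x ∂ν) := by ring
      linarith

/-- **Exhaustion.** -/
theorem exhaustion (h : ExhHyp η K c₀ M D Ω t₀ n G R s w φ lam₁ lam₂ ν) :
    ∃ ρ N : ℕ → E → ℝ, ρ 0 = φ ∧ (∀ i, Good Ω t₀ φ i (ρ i)) ∧
      ∀ i, StepRel c₀ M Ω t₀ n G s w lam₁ lam₂ ν i (ρ i) (ρ (i + 1)) (N i) := by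
  classical
  have hstep : ∀ (i : ℕ) (ρ : {ρ : E → ℝ // Good Ω t₀ φ i ρ}),
      ∃ ρ' : {ρ : E → ℝ // Good Ω t₀ φ (i + 1) ρ}, ∃ N : E → ℝ,
        StepRel c₀ M Ω t₀ n G s w lam₁ lam₂ ν i ρ.1 ρ'.1 N := by
    intro i ρ
    obtain ⟨ρ', N, h1, h2⟩ := exists_step h i ρ.1 ρ.2
    exact ⟨⟨ρ', h1⟩, N, h2⟩
  choose next hnext using hstep
  choose Nf hNf using hnext
  have h0 : Good Ω t₀ φ 0 φ := by
    refine ⟨h.cont, h.nonneg, fun x => le_rfl, ?_⟩
    rw [pow_zero, div_one]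
    exact h.loglip
  let seq : (i : ℕ) → {ρ : E → ℝ // Good Ω t₀ φ i ρ} := fun i =>
    Nat.rec (motive := fun i => {ρ : E → ℝ // Good Ω t₀ φ i ρ}) ⟨φ, h0⟩ (fun i ρ => next i ρ) i
  refine ⟨fun i => (seq i).1, fun i => Nf i (seq i), rfl, fun i => (seq i).2, fun i => ?_⟩
  exact hNf i (seq i)

/-- the total inequality -/
theorem exhaustion_sum {ρ N : ℕ → E → ℝ}
    (h : ∀ i, StepRel c₀ M Ω t₀ n G s w lam₁ lam₂ ν i (ρ i) (ρ (i + 1)) (N i)) (J : ℕ) :
    Lam lam₁ lam₂ (ρ 0) + ∑ i ∈ Finset.range J, ∫ x, N i x ∂ν ≤ Lam lam₁ lam₂ (ρ J) := by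
  induction J with
  | zero => simp
  | succ J ih =>
    rw [Finset.sum_range_succ]
    have := (h J).ineq
    linarith

end

end Vale.Agent.P214.EX
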