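import Mathlib

/-! The pointwise budget inequality (real sequences): class `q` has negativity `16⁻¹ ^ q` and step
size `κ 2⁻¹ ^ q`. If the total negativity is at least `B`, the allotted negativity is at least
`κ² B² / 16` times the final value. -/

open Finset

namespace Vale.Agent.P214.EX

/-- negativity of class `q` -/
noncomputable def wt (q : ℕ) : ℝ := (1 / 16 : ℝ) ^ q

/-- step size of class `q` (up to the factor `κ`) -/
noncomputable def st (q : ℕ) : ℝ := (1 / 2 : ℝ) ^ q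

theorem wt_pos (q : ℕ) : 0 < wt q := by unfold wt; positivity
theorem st_pos (q : ℕ) : 0 < st q := by unfold st; positivity
theorem st_le_one (q : ℕ) : st q ≤ 1 := pow_le_one₀ (by norm_num) (by norm_num)
theorem wt_le_one (q : ℕ) : wt q ≤ 1 := pow_le_one₀ (by norm_num) (by norm_num)

theorem sum_st_le (s : Finset ℕ) : ∑ q ∈ s, st q ≤ 2 := by
  have h1 : Summable fun q : ℕ => (1 / 2 : ℝ) ^ q := summable_geometric_two
  have h2 : ∑' q : ℕ, (1 / 2 : ℝ) ^ q = 2 := tsum_geometric_two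
  have h3 : ∀ q : ℕ, 0 ≤ (1 / 2 : ℝ) ^ q := fun q => by positivity
  calc ∑ q ∈ s, st q ≤ ∑' q : ℕ, (1 / 2 : ℝ) ^ q :=
        h1.sum_le_tsum s fun q _ => h3 q
    _ = 2 := h2

/-- pigeonhole over the classes -/
theorem pigeon (I : Finset ℕ) (q : ℕ → ℕ) (B : ℝ) (hB0 : 0 < B)
    (hB : B ≤ ∑ i ∈ I, wt (q i)) :
    ∃ q₀, B / 4 * st q₀ ≤ ((I.filter fun i => q i = q₀).card : ℝ) * wt q₀ := by
  classical
  by_contra hcon
  push Not at hcon
  have h1 : ∑ i ∈ I, wt (q i) = ∑ q₀ ∈ I.image q, ∑ i ∈ I.filter (fun i => q i = q₀), wt (q i) :=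
    (Finset.sum_fiberwise_of_maps_to (fun i hi => Finset.mem_image_of_mem q hi) _).symm
  have h2 : ∀ q₀ ∈ I.image q, ∑ i ∈ I.filter (fun i => q i = q₀), wt (q i) ≤ B / 4 * st q₀ := by
    intro q₀ _
    have h3 : ∑ i ∈ I.filter (fun i => q i = q₀), wt (q i)
        = ((I.filter fun i => q i = q₀).card : ℝ) * wt q₀ := by
      rw [Finset.sum_congr rfl (fun i hi => by rw [(Finset.mem_filter.1 hi).2])]
      rw [Finset.sum_const, nsmul_eq_mul]
    rw [h3]
    exact (hcon q₀).le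
  have h4 : B ≤ B / 4 * 2 := by
    calc B ≤ ∑ i ∈ I, wt (q i) := hB
      _ = _ := h1
      _ ≤ ∑ q₀ ∈ I.image q, B / 4 * st q₀ := Finset.sum_le_sum h2
      _ = B / 4 * ∑ q₀ ∈ I.image q, st q₀ := by rw [Finset.mul_sum]
      _ ≤ B / 4 * 2 := mul_le_mul_of_nonneg_left (sum_st_le _) (by linarith)
  linarith

theorem one_add_pow_ge (σ : ℝ) (hσ : 0 ≤ σ) (n : ℕ) :
    1 + n * σ + (n * (n - 1) / 2) * σ ^ 2 ≤ (1 + σ) ^ n := by
  induction n with
  | zero => simp
  | succ n ih =>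
    rw [pow_succ]
    push_cast
    have h1 : (0 : ℝ) ≤ 1 + σ := by linarith
    have h2 := mul_le_mul_of_nonneg_right ih h1
    refine le_trans ?_ h2
    have h3 : (0 : ℝ) ≤ n * (n - 1) / 2 * σ ^ 3 := by
      rcases Nat.eq_zero_or_pos n with rfl | hn
      · simp
      · have : (1 : ℝ) ≤ n := by exact_mod_cast hn
        have : (0 : ℝ) ≤ n - 1 := by linarith
        positivity
    nlinarith

section seq

variable (a : ℕ → ℝ) (ha : ∀ i, 0 ≤ a i) (hmono : ∀ i, a (i + 1) ≤ a i)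
include ha hmono

/-- along the steps of one class -/
theorem one_class (σ : ℝ) (hσ0 : 0 ≤ σ) (hσ1 : σ ≤ 1) (S : Finset ℕ)
    (hS : ∀ i ∈ S, a (i + 1) ≤ (1 - σ) * a i) (J : ℕ) :
    a J * ((1 + σ) ^ (S.filter fun i => i < J).card - 1)
      ≤ σ * ∑ i ∈ S.filter (fun i => i < J), a i := by
  classical
  induction J with
  | zero => simp
  | succ J ih =>
    by_cases hJ : J ∈ S
    · have h1 : S.filter (fun i => i < J + 1) = insert J (S.filter fun i => i < J) := by
        ext i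
        simp only [Finset.mem_filter, Finset.mem_insert]
        constructor
        · rintro ⟨hi, hlt⟩
          rcases Nat.lt_succ_iff_lt_or_eq.1 hlt with h | h
          · exact Or.inr ⟨hi, h⟩
          · exact Or.inl h
        · rintro (h | ⟨hi, hlt⟩)
          · subst h
            exact ⟨hJ, Nat.lt_succ_self _⟩
          · exact ⟨hi, by omega⟩
      have h2 : J ∉ S.filter fun i => i < J := by simp
      rw [h1, Finset.card_insert_of_notMem h2, Finset.sum_insert h2]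
      set n := (S.filter fun i => i < J).card
      have h3 := hS J hJ
      have h4 : (1 : ℝ) ≤ (1 + σ) ^ n := one_le_pow₀ (by linarith)
      have h5 : 0 ≤ (1 + σ) ^ (n + 1) - 1 := by
        have : (1 : ℝ) ≤ (1 + σ) ^ (n + 1) := one_le_pow₀ (by linarith)
        linarith
      have h6 : a (J + 1) * ((1 + σ) ^ (n + 1) - 1)
          ≤ (1 - σ) * a J * ((1 + σ) ^ (n + 1) - 1) := mul_le_mul_of_nonneg_right h3 h5
      refine h6.trans ?_
      have h7 : (1 - σ) * ((1 + σ) ^ (n + 1) - 1) ≤ (1 + σ) ^ n - 1 + σ := by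
        rw [pow_succ]
        nlinarith [sq_nonneg σ]
      have h8 := mul_le_mul_of_nonneg_right h7 (ha J)
      nlinarith
    · have h1 : S.filter (fun i => i < J + 1) = S.filter fun i => i < J := by
        ext i
        simp only [Finset.mem_filter]
        constructor
        · rintro ⟨hi, hlt⟩
          refine ⟨hi, ?_⟩
          rcases Nat.lt_succ_iff_lt_or_eq.1 hlt with h | h
          · exact h
          · subst h
            exact absurd hi hJ
        · rintro ⟨hi, hlt⟩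
          exact ⟨hi, by omega⟩
      rw [h1]
      refine le_trans ?_ ih
      refine mul_le_mul_of_nonneg_right (hmono J) ?_
      have : (1 : ℝ) ≤ (1 + σ) ^ (S.filter fun i => i < J).card := one_le_pow₀ (by linarith)
      linarith

theorem one_class_decay (σ : ℝ) (hσ0 : 0 ≤ σ) (hσ1 : σ ≤ 1) (S : Finset ℕ)
    (hS : ∀ i ∈ S, a (i + 1) ≤ (1 - σ) * a i) (J : ℕ) :
    a J * (1 + σ) ^ (S.filter fun i => i < J).card ≤ a 0 := by
  classical
  induction J with
  | zero => simp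
  | succ J ih =>
    by_cases hJ : J ∈ S
    · have h1 : S.filter (fun i => i < J + 1) = insert J (S.filter fun i => i < J) := by
        ext i
        simp only [Finset.mem_filter, Finset.mem_insert]
        constructor
        · rintro ⟨hi, hlt⟩
          rcases Nat.lt_succ_iff_lt_or_eq.1 hlt with h | h
          · exact Or.inr ⟨hi, h⟩
          · exact Or.inl h
        · rintro (h | ⟨hi, hlt⟩)
          · subst h
            exact ⟨hJ, Nat.lt_succ_self _⟩
          · exact ⟨hi, by omega⟩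
      have h2 : J ∉ S.filter fun i => i < J := by simp
      rw [h1, Finset.card_insert_of_notMem h2]
      set n := (S.filter fun i => i < J).card
      have h3 := hS J hJ
      have h4 : (0 : ℝ) ≤ (1 + σ) ^ n := by positivity
      calc a (J + 1) * (1 + σ) ^ (n + 1) ≤ (1 - σ) * a J * (1 + σ) ^ (n + 1) :=
            mul_le_mul_of_nonneg_right h3 (by positivity)
        _ = ((1 - σ) * (1 + σ)) * (a J * (1 + σ) ^ n) := by ring
        _ ≤ 1 * (a J * (1 + σ) ^ n) := by
            refine mul_le_mul_of_nonneg_right ?_ (mul_nonneg (ha J) h4)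
            nlinarith [sq_nonneg σ]
        _ ≤ a 0 := by rw [one_mul]; exact ih
    · have h1 : S.filter (fun i => i < J + 1) = S.filter fun i => i < J := by
        ext i
        simp only [Finset.mem_filter]
        constructor
        · rintro ⟨hi, hlt⟩
          refine ⟨hi, ?_⟩
          rcases Nat.lt_succ_iff_lt_or_eq.1 hlt with h | h
          · exact h
          · subst h
            exact absurd hi hJ
        · rintro ⟨hi, hlt⟩
          exact ⟨hi, by omega⟩
      rw [h1]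
      refine le_trans ?_ ih
      exact mul_le_mul_of_nonneg_right (hmono J) (by positivity)

/-- the number of steps of the class found by the pigeonhole principle is large -/
theorem class_count {κ B : ℝ} (hκ0 : 0 < κ) (I : Finset ℕ) (q : ℕ → ℕ) {q₀ : ℕ}
    (h : B / 4 * st q₀ ≤ ((I.filter fun i => q i = q₀).card : ℝ) * wt q₀) :
    κ * B / 4 * 4 ^ q₀ ≤ ((I.filter fun i => q i = q₀).card : ℝ) * (κ * st q₀) := by
  have h1 : wt q₀ = (1 / 16 : ℝ) ^ q₀ := rfl
  have h2 : st q₀ = (1 / 2 : ℝ) ^ q₀ := rfl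
  have h3 : (1 / 16 : ℝ) ^ q₀ * 16 ^ q₀ = 1 := by rw [← mul_pow]; norm_num
  have h4 : (1 / 2 : ℝ) ^ q₀ * (1 / 2 : ℝ) ^ q₀ * 16 ^ q₀ = 4 ^ q₀ := by
    rw [← mul_pow, ← mul_pow]; norm_num
  rw [h1, h2] at h
  have h5 : (0 : ℝ) ≤ κ * (1 / 2) ^ q₀ * 16 ^ q₀ := by positivity
  have h6 := mul_le_mul_of_nonneg_right h h5
  rw [h2]
  calc κ * B / 4 * 4 ^ q₀ = B / 4 * (1 / 2) ^ q₀ * (κ * (1 / 2) ^ q₀ * 16 ^ q₀) := by
        rw [← h4]; ring
    _ ≤ _ := h6
    _ = ((I.filter fun i => q i = q₀).card : ℝ) * (κ * (1 / 2) ^ q₀)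
          * ((1 / 16 : ℝ) ^ q₀ * 16 ^ q₀) := by ring
    _ = ((I.filter fun i => q i = q₀).card : ℝ) * (κ * (1 / 2) ^ q₀) := by rw [h3, mul_one]

/-- **Budget inequality.** -/
theorem budget (N : ℕ → ℝ) (hN : ∀ i, 0 ≤ N i) {κ : ℝ} (hκ0 : 0 < κ) (hκ1 : κ ≤ 1)
    (I : Finset ℕ) (q : ℕ → ℕ) (J : ℕ) (hIJ : ∀ i ∈ I, i < J)
    (hI : ∀ i ∈ I, κ * (st (q i) * wt (q i)) * a i ≤ N i ∧
      a (i + 1) ≤ (1 - κ * st (q i)) * a i)
    {B : ℝ} (hB : B ≤ ∑ i ∈ I, wt (q i)) (hBκ : 8 ≤ κ * B) :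
    (κ * B) ^ 2 / 64 * a J ≤ ∑ i ∈ Finset.range J, N i := by
  classical
  have hB0 : 0 < B := by
    by_contra hcon
    push Not at hcon
    nlinarith
  obtain ⟨q₀, hq₀⟩ := pigeon I q B hB0 hB
  have hcount := class_count a ha hmono hκ0 I q hq₀
  set S : Finset ℕ := I.filter fun i => q i = q₀ with hSdef
  set σ : ℝ := κ * st q₀ with hσdef
  have hσ0 : 0 ≤ σ := mul_nonneg hκ0.le (st_pos q₀).le
  have hσ1 : σ ≤ 1 := by
    have := st_le_one q₀
    nlinarith [st_pos q₀]
  have hS : ∀ i ∈ S, a (i + 1) ≤ (1 - σ) * a i := by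
    intro i hi
    obtain ⟨h1, h2⟩ := Finset.mem_filter.1 hi
    have := (hI i h1).2
    rw [h2] at this
    exact this
  have hSJ : S.filter (fun i => i < J) = S := by
    refine Finset.filter_true_of_mem fun i hi => ?_
    exact hIJ i (Finset.mem_filter.1 hi).1
  have h1 := one_class a ha hmono σ hσ0 hσ1 S hS J
  rw [hSJ] at h1
  have h2 := one_add_pow_ge σ hσ0 S.card
  -- lower bound of the number of steps
  have h4pow : (1 : ℝ) ≤ 4 ^ q₀ := one_le_pow₀ (by norm_num)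
  have hy : κ * B / 4 * 4 ^ q₀ ≤ (S.card : ℝ) * σ := hcount
  have hy2 : 2 ≤ (S.card : ℝ) * σ := by nlinarith
  have hn2 : (2 : ℝ) ≤ S.card := by
    have : (S.card : ℝ) * σ ≤ S.card := by
      have h0 : (0 : ℝ) ≤ S.card := Nat.cast_nonneg _
      nlinarith
    linarith
  have h3 : ((S.card : ℝ) * σ) ^ 2 / 4 ≤ (1 + σ) ^ S.card - 1 := by
    have h5 : ((S.card : ℝ) * σ) ^ 2 / 4 ≤ ((S.card : ℝ) * (S.card - 1) / 2) * σ ^ 2 := by
      have h6 : (S.card : ℝ) ^ 2 / 4 ≤ (S.card : ℝ) * (S.card - 1) / 2 := by nlinarith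
      have := mul_le_mul_of_nonneg_right h6 (sq_nonneg σ)
      nlinarith
    linarith
  have h7 : (κ * B) ^ 2 / 64 * 16 ^ q₀ ≤ (1 + σ) ^ S.card - 1 := by
    refine le_trans ?_ h3
    have h8 : (κ * B / 4 * 4 ^ q₀) ^ 2 ≤ ((S.card : ℝ) * σ) ^ 2 := by
      refine pow_le_pow_left₀ ?_ hy 2
      positivity
    have h9 : ((4 : ℝ) ^ q₀) ^ 2 = 16 ^ q₀ := by
      rw [← pow_mul, mul_comm, pow_mul]; norm_num
    have h10 : (κ * B / 4 * 4 ^ q₀) ^ 2 = (κ * B) ^ 2 / 16 * 16 ^ q₀ := by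
      rw [mul_pow, h9]; ring
    rw [h10] at h8
    linarith
  have h11 : ∑ i ∈ S, wt q₀ * (σ * a i) ≤ ∑ i ∈ Finset.range J, N i := by
    calc ∑ i ∈ S, wt q₀ * (σ * a i) ≤ ∑ i ∈ S, N i := by
          refine Finset.sum_le_sum fun i hi => ?_
          obtain ⟨h12, h13⟩ := Finset.mem_filter.1 hi
          have := (hI i h12).1
          rw [h13] at this
          calc wt q₀ * (σ * a i) = κ * (st q₀ * wt q₀) * a i := by rw [hσdef]; ring
            _ ≤ N i := this
      _ ≤ ∑ i ∈ Finset.range J, N i := by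
          refine Finset.sum_le_sum_of_subset_of_nonneg ?_ fun i _ _ => hN i
          intro i hi
          exact Finset.mem_range.2 (hIJ i (Finset.mem_filter.1 hi).1)
  rw [← Finset.mul_sum, ← Finset.mul_sum] at h11
  refine le_trans ?_ h11
  have h14 : a J * ((κ * B) ^ 2 / 64 * 16 ^ q₀) ≤ σ * ∑ i ∈ S, a i :=
    (mul_le_mul_of_nonneg_left h7 (ha J)).trans h1
  have h15 := mul_le_mul_of_nonneg_left h14 (wt_pos q₀).le
  have h16 : wt q₀ * (16 : ℝ) ^ q₀ = 1 := by
    unfold wt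
    rw [← mul_pow]; norm_num
  calc (κ * B) ^ 2 / 64 * a J = a J * ((κ * B) ^ 2 / 64) * (wt q₀ * 16 ^ q₀) := by
        rw [h16]; ring
    _ = wt q₀ * (a J * ((κ * B) ^ 2 / 64 * 16 ^ q₀)) := by ring
    _ ≤ _ := h15

/-- **Decay under a budget.** -/
theorem budget_decay {κ : ℝ} (hκ0 : 0 < κ) (hκ1 : κ ≤ 1)
    (I : Finset ℕ) (q : ℕ → ℕ) (J : ℕ) (hIJ : ∀ i ∈ I, i < J)
    (hI : ∀ i ∈ I, a (i + 1) ≤ (1 - κ * st (q i)) * a i)
    {B : ℝ} (hB : B ≤ ∑ i ∈ I, wt (q i)) (hBκ : 4 ≤ κ * B) :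
    a J ≤ a 0 / 2 := by
  classical
  have hB0 : 0 < B := by
    by_contra hcon
    push Not at hcon
    nlinarith
  obtain ⟨q₀, hq₀⟩ := pigeon I q B hB0 hB
  have hcount := class_count a ha hmono hκ0 I q hq₀
  set S : Finset ℕ := I.filter fun i => q i = q₀ with hSdef
  set σ : ℝ := κ * st q₀ with hσdef
  have hσ0 : 0 ≤ σ := mul_nonneg hκ0.le (st_pos q₀).le
  have hσ1 : σ ≤ 1 := by
    have := st_le_one q₀
    nlinarith [st_pos q₀]
  have hS : ∀ i ∈ S, a (i + 1) ≤ (1 - σ) * a i := by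
    intro i hi
    obtain ⟨h1, h2⟩ := Finset.mem_filter.1 hi
    have := hI i h1
    rw [h2] at this
    exact this
  have hSJ : S.filter (fun i => i < J) = S := by
    refine Finset.filter_true_of_mem fun i hi => ?_
    exact hIJ i (Finset.mem_filter.1 hi).1
  have h1 := one_class_decay a ha hmono σ hσ0 hσ1 S hS J
  rw [hSJ] at h1
  have h2 := one_add_pow_ge σ hσ0 S.card
  have h4pow : (1 : ℝ) ≤ 4 ^ q₀ := one_le_pow₀ (by norm_num)
  have hy2 : 1 ≤ (S.card : ℝ) * σ := by nlinarith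
  have hn1 : (1 : ℝ) ≤ S.card := by
    have : (S.card : ℝ) * σ ≤ S.card := by
      have h0 : (0 : ℝ) ≤ S.card := Nat.cast_nonneg _
      nlinarith
    linarith
  have h3 : 2 ≤ (1 + σ) ^ S.card := by
    have : 0 ≤ ((S.card : ℝ) * (S.card - 1) / 2) * σ ^ 2 := by
      have : (0 : ℝ) ≤ S.card - 1 := by linarith
      positivity
    linarith
  have h5 := mul_le_mul_of_nonneg_left h3 (ha J)
  linarith

end seq

end Vale.Agent.P214.EX
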