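import Vale.Agent.P214.EX.Iter

/-! The limit of the exhaustion over all levels, and the regularity of the limit where the
centres stop. -/

open MeasureTheory Set Filter Topology Metric

namespace Vale.Agent.P214.EX

variable {E : Type*} [NormedAddCommGroup E] [NormedSpace ℝ E] [FiniteDimensional ℝ E]
  [MeasurableSpace E] [BorelSpace E]

/-- the limit of the exhaustion functions -/
noncomputable def rhoLim (ρ : ℕ → E → ℝ) (x : E) : ℝ := ⨅ i, ρ i x

/-- the total allotted negativity -/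
noncomputable def negLim (N : ℕ → E → ℝ) (x : E) : ℝ := ∑' i, N i x

section

variable {c₀ : ℝ} {M : ℕ} {Ω : Set E} {t₀ : ℝ} {n : ℕ → ℕ}
  {G : ℕ → ℕ → Set E} {s w : ℕ → ℝ} {φ : E → ℝ} {lam₁ lam₂ ν : Measure E}
  {ρ N : ℕ → E → ℝ}

theorem rho_antitone
    (hs : ∀ i, StepRel c₀ M Ω t₀ n G s w lam₁ lam₂ ν i (ρ i) (ρ (i + 1)) (N i)) (x : E) :
    Antitone fun i => ρ i x :=
  antitone_nat_of_succ_le fun i => (hs i).le x

theorem bddBelow_rho (hg : ∀ i, Good Ω t₀ φ i (ρ i)) (x : E) :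
    BddBelow (range fun i => ρ i x) := by
  refine ⟨0, ?_⟩
  rintro _ ⟨i, rfl⟩
  exact (hg i).nonneg x

theorem tendsto_rhoLim (hg : ∀ i, Good Ω t₀ φ i (ρ i))
    (hs : ∀ i, StepRel c₀ M Ω t₀ n G s w lam₁ lam₂ ν i (ρ i) (ρ (i + 1)) (N i)) (x : E) :
    Tendsto (fun i => ρ i x) atTop (𝓝 (rhoLim ρ x)) :=
  tendsto_atTop_ciInf (rho_antitone hs x) (bddBelow_rho hg x)

theorem rhoLim_le (hg : ∀ i, Good Ω t₀ φ i (ρ i)) (x : E) (i : ℕ) : rhoLim ρ x ≤ ρ i x :=
  ciInf_le (bddBelow_rho hg x) i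

theorem rhoLim_nonneg (hg : ∀ i, Good Ω t₀ φ i (ρ i)) (x : E) : 0 ≤ rhoLim ρ x :=
  le_ciInf fun i => (hg i).nonneg x

theorem rhoLim_le_phi (hg : ∀ i, Good Ω t₀ φ i (ρ i)) (x : E) : rhoLim ρ x ≤ φ x :=
  (rhoLim_le hg x 0).trans ((hg 0).le x)

theorem measurable_rhoLim (hg : ∀ i, Good Ω t₀ φ i (ρ i))
    (hs : ∀ i, StepRel c₀ M Ω t₀ n G s w lam₁ lam₂ ν i (ρ i) (ρ (i + 1)) (N i)) :
    Measurable (rhoLim ρ) := by
  refine measurable_of_tendsto_metrizable (fun i => (hg i).cont.measurable) ?_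
  rw [tendsto_pi_nhds]
  exact fun x => tendsto_rhoLim hg hs x

theorem sum_N_le (hw : ∀ q, w q ≤ 1)
    (hs : ∀ i, StepRel c₀ M Ω t₀ n G s w lam₁ lam₂ ν i (ρ i) (ρ (i + 1)) (N i)) (x : E) (J : ℕ) :
    ∑ i ∈ Finset.range J, N i x ≤ ρ 0 x - ρ J x := by
  induction J with
  | zero => simp
  | succ J ih =>
    rw [Finset.sum_range_succ]
    have := (hs J).upper 1 (fun q _ => hw q) x
    linarith

theorem summable_N (hw : ∀ q, w q ≤ 1) (hg : ∀ i, Good Ω t₀ φ i (ρ i))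
    (hs : ∀ i, StepRel c₀ M Ω t₀ n G s w lam₁ lam₂ ν i (ρ i) (ρ (i + 1)) (N i)) (x : E) :
    Summable fun i => N i x := by
  refine summable_of_sum_range_le (c := ρ 0 x) (fun i => (hs i).nonneg x) fun J => ?_
  have := sum_N_le hw hs x J
  linarith [(hg J).nonneg x]

theorem hasSum_N (hw : ∀ q, w q ≤ 1) (hg : ∀ i, Good Ω t₀ φ i (ρ i))
    (hs : ∀ i, StepRel c₀ M Ω t₀ n G s w lam₁ lam₂ ν i (ρ i) (ρ (i + 1)) (N i)) (x : E) :
    HasSum (fun i => N i x) (negLim N x) :=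
  (summable_N hw hg hs x).hasSum

theorem negLim_nonneg
    (hs : ∀ i, StepRel c₀ M Ω t₀ n G s w lam₁ lam₂ ν i (ρ i) (ρ (i + 1)) (N i)) (x : E) :
    0 ≤ negLim N x :=
  tsum_nonneg fun i => (hs i).nonneg x

theorem negLim_le (hw : ∀ q, w q ≤ 1) (hg : ∀ i, Good Ω t₀ φ i (ρ i))
    (hs : ∀ i, StepRel c₀ M Ω t₀ n G s w lam₁ lam₂ ν i (ρ i) (ρ (i + 1)) (N i)) (x : E) :
    negLim N x ≤ ρ 0 x - rhoLim ρ x := by
  refine le_of_tendsto (hasSum_N hw hg hs x).tendsto_sum_nat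
    (Filter.Eventually.of_forall fun J => ?_)
  have := sum_N_le hw hs x J
  linarith [rhoLim_le hg x J]

theorem sum_N_le_negLim (hw : ∀ q, w q ≤ 1) (hg : ∀ i, Good Ω t₀ φ i (ρ i))
    (hs : ∀ i, StepRel c₀ M Ω t₀ n G s w lam₁ lam₂ ν i (ρ i) (ρ (i + 1)) (N i)) (x : E)
    (S : Finset ℕ) : ∑ i ∈ S, N i x ≤ negLim N x :=
  (summable_N hw hg hs x).sum_le_tsum S fun i _ => (hs i).nonneg x

theorem measurable_negLim (hw : ∀ q, w q ≤ 1) (hg : ∀ i, Good Ω t₀ φ i (ρ i))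
    (hs : ∀ i, StepRel c₀ M Ω t₀ n G s w lam₁ lam₂ ν i (ρ i) (ρ (i + 1)) (N i)) :
    Measurable (negLim N) := by
  refine measurable_of_tendsto_metrizable
    (f := fun J x => ∑ i ∈ Finset.range J, N i x) (fun J => ?_) ?_
  · exact (continuous_finset_sum _ fun i _ => (hs i).cont).measurable
  · rw [tendsto_pi_nhds]
    exact fun x => (hasSum_N hw hg hs x).tendsto_sum_nat

/-- **The limit inequality.** -/
theorem lam_le_lim [IsFiniteMeasure lam₁] [IsFiniteMeasure lam₂] [IsFiniteMeasure ν]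
    (hw : ∀ q, w q ≤ 1) (hφ : ∀ x, φ x ≤ 1) (hg : ∀ i, Good Ω t₀ φ i (ρ i))
    (hs : ∀ i, StepRel c₀ M Ω t₀ n G s w lam₁ lam₂ ν i (ρ i) (ρ (i + 1)) (N i)) :
    Lam lam₁ lam₂ (ρ 0) + ∫ x, negLim N x ∂ν ≤ Lam lam₁ lam₂ (rhoLim ρ) := by
  have h1 : ∀ μ : Measure E, IsFiniteMeasure μ →
      Tendsto (fun J => ∫ x, ρ J x ∂μ) atTop (𝓝 (∫ x, rhoLim ρ x ∂μ)) := by
    intro μ hμ
    refine tendsto_integral_of_dominated_convergence (fun _ => (1 : ℝ))
      (fun J => (hg J).cont.aestronglyMeasurable) (integrable_const 1) (fun J => ?_) ?_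
    · refine Filter.Eventually.of_forall fun x => ?_
      rw [Real.norm_of_nonneg ((hg J).nonneg x)]
      exact ((hg J).le x).trans (hφ x)
    · exact Filter.Eventually.of_forall fun x => tendsto_rhoLim hg hs x
  have h2 : Tendsto (fun J => Lam lam₁ lam₂ (ρ J)) atTop (𝓝 (Lam lam₁ lam₂ (rhoLim ρ))) := by
    unfold Lam
    exact (h1 lam₁ inferInstance).sub (h1 lam₂ inferInstance)
  have h3 : Tendsto (fun J => ∫ x, ∑ i ∈ Finset.range J, N i x ∂ν) atTop
      (𝓝 (∫ x, negLim N x ∂ν)) := by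
    refine tendsto_integral_of_dominated_convergence (fun _ => (1 : ℝ))
      (fun J => ?_) (integrable_const 1) (fun J => ?_) ?_
    · exact (continuous_finset_sum _ fun i _ => (hs i).cont).aestronglyMeasurable
    · refine Filter.Eventually.of_forall fun x => ?_
      rw [Real.norm_of_nonneg (Finset.sum_nonneg fun i _ => (hs i).nonneg x)]
      have := sum_N_le hw hs x J
      linarith [(hg J).nonneg x, (hg 0).le x, hφ x]
    · exact Filter.Eventually.of_forall fun x => (hasSum_N hw hg hs x).tendsto_sum_nat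
  have h4 : ∀ i, Integrable (N i) ν := by
    intro i
    refine integrable_of_bdd (hs i).cont 1 fun x => ?_
    rw [abs_of_nonneg ((hs i).nonneg x)]
    have := (hs i).upper 1 (fun q _ => hw q) x
    linarith [(hg (i + 1)).nonneg x, (hg i).le x, hφ x]
  refine le_of_tendsto_of_tendsto (tendsto_const_nhds.add h3) h2
    (Filter.Eventually.of_forall fun J => ?_)
  show Lam lam₁ lam₂ (ρ 0) + ∫ x, ∑ i ∈ Finset.range J, N i x ∂ν ≤ Lam lam₁ lam₂ (ρ J)
  rw [integral_finset_sum _ fun i _ => h4 i]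
  exact exhaustion_sum hs J

/-- no centre of class `q < n i` of a level `i ≥ I` reaches `x` -/
def FarFrom (t₀ : ℝ) (n : ℕ → ℕ) (G : ℕ → ℕ → Set E) (I : ℕ) (x : E) : Prop :=
  ∀ i, I ≤ i → ∀ q < n i, ∀ p ∈ G i q, 2 * (t₀ / 2 ^ i) ≤ dist p x

theorem rho_stop {I : ℕ} {x : E} (hx : FarFrom t₀ n G I x)
    (hs : ∀ i, StepRel c₀ M Ω t₀ n G s w lam₁ lam₂ ν i (ρ i) (ρ (i + 1)) (N i)) (J : ℕ)
    (hJ : I ≤ J) : ρ J x = ρ I x := by
  induction J, hJ using Nat.le_induction with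
  | base => rfl
  | succ J hJ ih => rw [((hs J).far x (hx J hJ)).1, ih]

theorem rhoLim_stop {I : ℕ} {x : E} (hx : FarFrom t₀ n G I x) (hg : ∀ i, Good Ω t₀ φ i (ρ i))
    (hs : ∀ i, StepRel c₀ M Ω t₀ n G s w lam₁ lam₂ ν i (ρ i) (ρ (i + 1)) (N i)) :
    rhoLim ρ x = ρ I x := by
  refine tendsto_nhds_unique (tendsto_rhoLim hg hs x) ?_
  refine tendsto_const_nhds.congr' ?_
  filter_upwards [eventually_ge_atTop I] with J hJ
  exact (rho_stop hx hs J hJ).symm

theorem N_stop {I : ℕ} {x : E} (hx : FarFrom t₀ n G I x)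
    (hs : ∀ i, StepRel c₀ M Ω t₀ n G s w lam₁ lam₂ ν i (ρ i) (ρ (i + 1)) (N i)) (J : ℕ)
    (hJ : I ≤ J) : N J x = 0 :=
  ((hs J).far x (hx J hJ)).2

theorem negLim_stop {I : ℕ} {x : E} (hx : FarFrom t₀ n G I x)
    (hs : ∀ i, StepRel c₀ M Ω t₀ n G s w lam₁ lam₂ ν i (ρ i) (ρ (i + 1)) (N i)) :
    negLim N x = ∑ i ∈ Finset.range I, N i x := by
  refine tsum_eq_sum fun i hi => ?_
  exact N_stop hx hs i (not_lt.1 fun h => hi (Finset.mem_range.2 h))

/-- **Regularity of the limit.** Suppose that centres of level `i` satisfy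
`K₁ * r p ≤ t₀ / 2 ^ i` for a function `r` which is `Lr`-Lipschitz. Then the limit is
log-Lipschitz at scale `min t₀ (r x / (4 * (1 / K₁ + 2 * Lr)))`. -/
theorem rhoLim_loglip (ht : 0 < t₀) (hg : ∀ i, Good Ω t₀ φ i (ρ i))
    (hs : ∀ i, StepRel c₀ M Ω t₀ n G s w lam₁ lam₂ ν i (ρ i) (ρ (i + 1)) (N i))
    {r : E → ℝ} {K₁ Lr : ℝ} (hK₁ : 0 < K₁) (hLr : 0 ≤ Lr)
    (hr : ∀ x y, |r x - r y| ≤ Lr * dist x y)
    (hG : ∀ i, ∀ q < n i, ∀ p ∈ G i q, K₁ * r p ≤ t₀ / 2 ^ i)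
    {x y : E} (hx : x ∈ Ω) (hy : y ∈ Ω) (hrx : 0 < r x) {τ : ℝ}
    (hτ : τ = min t₀ (r x / (4 * (1 / K₁ + 2 * Lr)))) (hxy : dist x y ≤ 4 * τ) :
    |rhoLim ρ x - rhoLim ρ y| ≤ 1 / 8 * (dist x y / τ) * rhoLim ρ y := by
  set A : ℝ := 1 / K₁ + 2 * Lr with hA
  have hA0 : 0 < A := by positivity
  have hτ0 : 0 < τ := by
    rw [hτ]
    exact lt_min ht (by positivity)
  -- levels with small radii do not reach a point `z`
  have hfar : ∀ z : E, ∀ i : ℕ, A * (t₀ / 2 ^ i) < r z →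
      ∀ q < n i, ∀ p ∈ G i q, 2 * (t₀ / 2 ^ i) ≤ dist p z := by
    intro z i hi q hq p hp
    by_contra hcon
    push Not at hcon
    have h1 := hG i q hq p hp
    have h2 := hr z p
    have h3 : r z ≤ r p + Lr * dist z p := by linarith [le_abs_self (r z - r p)]
    have h4 : r p ≤ 1 / K₁ * (t₀ / 2 ^ i) := by
      rw [one_div, ← div_eq_inv_mul, le_div_iff₀ hK₁]
      linarith
    have h5 : Lr * dist z p ≤ Lr * (2 * (t₀ / 2 ^ i)) := by
      refine mul_le_mul_of_nonneg_left ?_ hLr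
      rw [dist_comm]
      exact hcon.le
    have h6 : A * (t₀ / 2 ^ i) = 1 / K₁ * (t₀ / 2 ^ i) + Lr * (2 * (t₀ / 2 ^ i)) := by
      rw [hA]; ring
    linarith
  -- the first level with small radius
  have hex : ∃ I : ℕ, t₀ / 2 ^ I < r x / (2 * A) := by
    have h1 : Tendsto (fun i : ℕ => t₀ / 2 ^ i) atTop (𝓝 0) := by
      have h2 := (tendsto_pow_atTop_nhds_zero_of_lt_one (r := (1 / 2 : ℝ)) (by norm_num)
        (by norm_num)).const_mul t₀
      rw [mul_zero] at h2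
      refine h2.congr fun i => ?_
      rw [one_div, inv_pow]
      rfl
    exact (h1.eventually (gt_mem_nhds (by positivity : (0 : ℝ) < r x / (2 * A)))).exists
  classical
  let I := Nat.find hex
  have hI : t₀ / 2 ^ I < r x / (2 * A) := Nat.find_spec hex
  have hIτ : τ ≤ t₀ / 2 ^ I := by
    rcases Nat.eq_zero_or_pos I with h0 | hpos
    · rw [h0, pow_zero, div_one, hτ]
      exact min_le_left _ _
    · have h1 : ¬ (t₀ / 2 ^ (I - 1) < r x / (2 * A)) := Nat.find_min hex (by omega)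
      have h2 : t₀ / 2 ^ I = t₀ / 2 ^ (I - 1) / 2 := by
        have : I = (I - 1) + 1 := by omega
        conv_lhs => rw [this, pow_succ]
        field_simp
      have h3 : r x / (4 * A) = r x / (2 * A) / 2 := by
        field_simp
        norm_num
      have h4 : τ ≤ r x / (4 * A) := by
        rw [hτ]
        exact min_le_right _ _
      rw [h2]
      rw [h3] at h4
      linarith [not_lt.1 h1]
  have hlev : ∀ i, I ≤ i → A * (t₀ / 2 ^ i) < r x / 2 := by
    intro i hi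
    have h1 : t₀ / 2 ^ i ≤ t₀ / 2 ^ I := by
      refine div_le_div_of_nonneg_left ht.le (by positivity) ?_
      exact pow_le_pow_right₀ (by norm_num) hi
    have h2 : t₀ / 2 ^ i < r x / (2 * A) := lt_of_le_of_lt h1 hI
    rw [lt_div_iff₀ (by positivity)] at h2
    linarith
  have hryx : r x / 2 ≤ r y := by
    have h1 := hr x y
    have h2 : Lr * dist x y ≤ r x / 2 := by
      have h3 : 4 * τ ≤ r x / A := by
        have h4 : τ ≤ r x / (4 * A) := by
          rw [hτ]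
          exact min_le_right _ _
        have h5 : r x / A = 4 * (r x / (4 * A)) := by field_simp
        rw [h5]
        linarith
      have h4 : Lr * dist x y ≤ Lr * (r x / A) :=
        mul_le_mul_of_nonneg_left (hxy.trans h3) hLr
      refine h4.trans ?_
      rw [mul_div_assoc', div_le_iff₀ hA0]
      have h5 : 2 * Lr ≤ A := by
        rw [hA]
        have : 0 < 1 / K₁ := by positivity
        linarith
      nlinarith
    linarith [le_abs_self (r x - r y)]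
  have hfx : FarFrom t₀ n G I x := fun i hi => hfar x i (by linarith [hlev i hi])
  have hfy : FarFrom t₀ n G I y := fun i hi => hfar y i (by linarith [hlev i hi])
  rw [rhoLim_stop hfx hg hs, rhoLim_stop hfy hg hs]
  have hT : 0 < t₀ / 2 ^ I := by positivity
  have h1 := (hg I).loglip x hx y hy (hxy.trans (by linarith))
  refine h1.trans ?_
  refine mul_le_mul_of_nonneg_right ?_ ((hg I).nonneg y)
  refine mul_le_mul_of_nonneg_left ?_ (by norm_num)
  exact div_le_div_of_nonneg_left dist_nonneg hτ0 hIτ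

end

end Vale.Agent.P214.EX
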