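import Mathlib

/-! Packing bounds and finite nets in a finite-dimensional normed space. -/

open Set Filter Topology Metric

namespace Vale.Agent.P214.EX

variable {E : Type*} [NormedAddCommGroup E] [NormedSpace ℝ E] [FiniteDimensional ℝ E]

/-- A bounded set carries only boundedly many `t`-separated points. -/
theorem card_bound_of_bounded (G : Set E) (hG : Bornology.IsBounded G) (t : ℝ) (ht : 0 < t) :
    ∃ N : ℕ, ∀ s : Finset E, (∀ c ∈ s, c ∈ G) → (∀ c ∈ s, ∀ d ∈ s, c ≠ d → t ≤ dist c d) →
      s.card ≤ N := by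
  classical
  haveI : ProperSpace E := FiniteDimensional.proper ℝ E
  have hc : IsCompact (closure G) := hG.isCompact_closure
  obtain ⟨u, -, hu⟩ := hc.elim_nhds_subcover (fun x => ball x (t / 2))
    (fun x _ => ball_mem_nhds x (by linarith))
  refine ⟨u.card, fun s hs hsep => ?_⟩
  have hex : ∀ c ∈ s, ∃ b ∈ u, c ∈ ball b (t / 2) := by
    intro c hc
    have := hu (subset_closure (hs c hc))
    simpa using this
  choose! f hf using hex
  refine Finset.card_le_card_of_injOn f (fun c hc => (hf c hc).1) ?_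
  intro c hc d hd hcd
  by_contra hne
  have h1 := (hf c hc).2
  have h2 := (hf d hd).2
  rw [hcd] at h1
  have h3 : dist c d < t := by
    calc dist c d ≤ dist c (f d) + dist d (f d) := dist_triangle_right _ _ _
      _ < t / 2 + t / 2 := add_lt_add h1 h2
      _ = t := by ring
  exact absurd (hsep c hc d hd hne) (not_le.mpr h3)

variable (E) in
/-- Packing constant: at most `M` points which are `t`-separated lie in a ball of radius `4 t`. -/
theorem exists_packing : ∃ M : ℕ, 1 ≤ M ∧ ∀ (s : Finset E) (x : E) (t : ℝ), 0 < t →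
    (∀ c ∈ s, dist c x ≤ 4 * t) → (∀ c ∈ s, ∀ d ∈ s, c ≠ d → t ≤ dist c d) → s.card ≤ M := by
  classical
  obtain ⟨N, hN⟩ := card_bound_of_bounded (closedBall (0 : E) 4) isBounded_closedBall 1 one_pos
  refine ⟨N + 1, by omega, fun s x t ht hs hsep => ?_⟩
  have hinj : Function.Injective fun c : E => t⁻¹ • (c - x) := by
    intro c d h
    have := smul_right_injective E (inv_ne_zero ht.ne') h
    simpa using this
  have h1 := hN (s.image fun c => t⁻¹ • (c - x)) ?_ ?_
  · rw [Finset.card_image_of_injective _ hinj] at h1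
    omega
  · intro c hc
    obtain ⟨d, hd, rfl⟩ := Finset.mem_image.1 hc
    have := hs d hd
    rw [mem_closedBall, dist_zero_right, norm_smul, norm_inv, Real.norm_of_nonneg ht.le,
      ← dist_eq_norm, inv_mul_le_iff₀ ht]
    linarith
  · intro c hc d hd hne
    obtain ⟨c', hc', rfl⟩ := Finset.mem_image.1 hc
    obtain ⟨d', hd', rfl⟩ := Finset.mem_image.1 hd
    have hne' : c' ≠ d' := fun h => hne (by rw [h])
    have := hsep c' hc' d' hd' hne'
    rw [dist_eq_norm, ← smul_sub, norm_smul, norm_inv, Real.norm_of_nonneg ht.le,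
      show c' - x - (d' - x) = c' - d' by abel, ← dist_eq_norm]
    rw [le_inv_mul_iff₀ ht]
    linarith

/-- A bounded set has a finite maximal `t`-separated subset. -/
theorem exists_net (G : Set E) (hG : Bornology.IsBounded G) (t : ℝ) (ht : 0 < t) :
    ∃ s : Finset E, (∀ c ∈ s, c ∈ G) ∧ (∀ c ∈ s, ∀ d ∈ s, c ≠ d → t ≤ dist c d) ∧
      ∀ x ∈ G, ∃ c ∈ s, dist x c < t := by
  classical
  obtain ⟨N, hN⟩ := card_bound_of_bounded G hG t ht
  let P : ℕ → Prop := fun k => ∃ s : Finset E, (∀ c ∈ s, c ∈ G) ∧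
    (∀ c ∈ s, ∀ d ∈ s, c ≠ d → t ≤ dist c d) ∧ s.card = k
  have hP0 : P 0 := ⟨∅, by simp, by simp, rfl⟩
  have hmax : P (Nat.findGreatest P N) := Nat.findGreatest_spec (Nat.zero_le N) hP0
  obtain ⟨s, hs1, hs2, hs3⟩ := hmax
  refine ⟨s, hs1, hs2, fun x hx => ?_⟩
  by_contra hcon
  push Not at hcon
  have hxs : x ∉ s := by
    intro hxs
    have := hcon x hxs
    rw [dist_self] at this
    linarith
  have hP1 : P (Nat.findGreatest P N + 1) := by
    refine ⟨insert x s, ?_, ?_, ?_⟩
    · intro c hc
      rcases Finset.mem_insert.1 hc with rfl | hc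
      · exact hx
      · exact hs1 c hc
    · intro c hc d hd hne
      rcases Finset.mem_insert.1 hc with h1 | h1 <;> rcases Finset.mem_insert.1 hd with h2 | h2
      · exact absurd (h1.trans h2.symm) hne
      · subst h1
        exact hcon d h2
      · subst h2
        rw [dist_comm]
        exact hcon c h1
      · exact hs2 c h1 d h2 hne
    · rw [Finset.card_insert_of_notMem hxs, hs3]
  have hle : Nat.findGreatest P N + 1 ≤ N := by
    obtain ⟨s', h1, h2, h3⟩ := hP1
    rw [← h3]
    exact hN s' h1 h2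
  have := Nat.le_findGreatest hle hP1
  omega

end Vale.Agent.P214.EX
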