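import Vale.Agent.P214.EX.Limit
import Vale.Agent.P214.EX.Budget

/-! The packaged exhaustion: canonical centres, and the conclusion at the points where the total
negativity is at least a given budget. -/

open MeasureTheory Set Filter Topology Metric

namespace Vale.Agent.P214.EX

variable {E : Type*} [NormedAddCommGroup E] [NormedSpace ℝ E] [FiniteDimensional ℝ E]
  [MeasurableSpace E] [BorelSpace E]

/-- the canonical centres of class `q` at level `i`: admissible points which have, at some radius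
in `[T, 2T]`, `T = t₀ / 2 ^ i`, negativity at least `wt q = 16⁻¹ ^ q` -/
def Cen (η : E → ℝ) (D : Set E) (adm : ℕ → Set E) (t₀ : ℝ) (lam₁ lam₂ ν : Measure E)
    (i q : ℕ) : Set E :=
  {p | p ∈ D ∧ p ∈ adm i ∧ ∃ r, t₀ / 2 ^ i ≤ r ∧ r ≤ 2 * (t₀ / 2 ^ i) ∧
    Lam lam₁ lam₂ (ker η p r) ≤ -(wt q * ∫ x, ker η p r x ∂ν)}

/-- the output of the exhaustion -/
structure Total (η : E → ℝ) (c₀ κ : ℝ) (M : ℕ) (D Ω : Set E) (adm : ℕ → Set E) (t₀ : ℝ)
    (φ : E → ℝ) (lam₁ lam₂ ν : Measure E) (ρ N : ℕ → E → ℝ) : Prop where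
  zero : ρ 0 = φ
  good : ∀ i, Good Ω t₀ φ i (ρ i)
  step : ∀ i, StepRel c₀ M Ω t₀ (fun i => i + 1) (Cen η D adm t₀ lam₁ lam₂ ν)
    (fun q => κ * st q) wt lam₁ lam₂ ν i (ρ i) (ρ (i + 1)) (N i)
  ineq : Lam lam₁ lam₂ φ + ∫ x, negLim N x ∂ν ≤ Lam lam₁ lam₂ (rhoLim ρ)

section

variable {η : E → ℝ} {K c₀ : ℝ} {M : ℕ} {D Ω : Set E} {adm : ℕ → Set E} {t₀ : ℝ} {φ : E → ℝ}
  {lam₁ lam₂ ν : Measure E}

/-- **Existence of the exhaustion**, with `κ = 1 / (128 M K)`. -/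
theorem exists_total [IsFiniteMeasure lam₁] [IsFiniteMeasure lam₂] [IsFiniteMeasure ν]
    (hη : IsKernel η K c₀) (hM : 1 ≤ M)
    (hpack : ∀ (s : Finset E) (x : E) (t : ℝ), 0 < t →
      (∀ c ∈ s, dist c x ≤ 4 * t) → (∀ c ∈ s, ∀ d ∈ s, c ≠ d → t ≤ dist c d) → s.card ≤ M)
    (hD : Bornology.IsBounded D) (hDΩ : ∀ p ∈ D, closedBall p (2 * t₀) ⊆ Ω) (ht : 0 < t₀)
    (adm : ℕ → Set E) (hφc : Continuous φ) (hφ0 : ∀ x, 0 ≤ φ x) (hφ1 : ∀ x, φ x ≤ 1)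
    (hφl : LogLip Ω t₀ φ) :
    ∃ ρ N : ℕ → E → ℝ,
      Total η c₀ (1 / (128 * M * K)) M D Ω adm t₀ φ lam₁ lam₂ ν ρ N := by
  classical
  have hK := hη.one_le
  have hM' : (1 : ℝ) ≤ M := by exact_mod_cast hM
  have hκ : (0 : ℝ) < 1 / (128 * M * K) := by positivity
  have hR : ∀ i q p, ∃ r : ℝ, p ∈ Cen η D adm t₀ lam₁ lam₂ ν i q →
      (t₀ / 2 ^ i ≤ r ∧ r ≤ 2 * (t₀ / 2 ^ i) ∧
        Lam lam₁ lam₂ (ker η p r) ≤ -(wt q * ∫ x, ker η p r x ∂ν)) := by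
    intro i q p
    by_cases hp : p ∈ Cen η D adm t₀ lam₁ lam₂ ν i q
    · obtain ⟨r, hr⟩ := hp.2.2
      exact ⟨r, fun _ => hr⟩
    · exact ⟨0, fun h => absurd h hp⟩
  choose R hR using hR
  have h : ExhHyp η K c₀ M D Ω t₀ (fun i => i + 1) (Cen η D adm t₀ lam₁ lam₂ ν) R
      (fun q => 1 / (128 * M * K) * st q) wt φ lam₁ lam₂ ν :=
    { kernel := hη
      hM := hM
      packing := hpack
      bdd := hD
      sub := hDΩ
      ht := ht
      hG := fun i q _ p hp => hp.1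
      hR := fun i q _ p hp => ⟨(hR i q p hp).1, (hR i q p hp).2.1⟩
      neg := fun i q _ p hp => (hR i q p hp).2.2
      s_nonneg := fun q => mul_nonneg hκ.le (st_pos q).le
      w_nonneg := fun q => (wt_pos q).le
      s_sum := by
        intro i
        rw [← Finset.mul_sum]
        have h1 := sum_st_le (Finset.range (i + 1))
        have h2 : (0 : ℝ) < 128 * M * K := by positivity
        calc 1 / (128 * M * K) * (∑ q ∈ Finset.range (i + 1), st q) * (64 * M * K)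
            ≤ 1 / (128 * M * K) * 2 * (64 * M * K) := by
              refine mul_le_mul_of_nonneg_right ?_ (by positivity)
              exact mul_le_mul_of_nonneg_left h1 hκ.le
          _ = 1 := by field_simp; norm_num
      cont := hφc
      nonneg := hφ0
      le_one := hφ1
      loglip := hφl }
  obtain ⟨ρ, N, h0, h1, h2⟩ := exhaustion h
  refine ⟨ρ, N, h0, h1, h2, ?_⟩
  rw [← h0]
  exact lam_le_lim wt_le_one hφ1 h1 h2

/-- choice of the class -/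
theorem exists_class {b : ℝ} (hb1 : b ≤ 1) {i : ℕ} (hb : wt i ≤ b) :
    ∃ q < i + 1, wt q ≤ b ∧ b ≤ 16 * wt q := by
  classical
  have hex : ∃ q, wt q ≤ b := ⟨i, hb⟩
  let q := Nat.find hex
  have hq : wt q ≤ b := Nat.find_spec hex
  have hqi : q ≤ i := Nat.find_min' hex hb
  refine ⟨q, by omega, hq, ?_⟩
  rcases Nat.eq_zero_or_pos q with h0 | hpos
  · rw [h0]
    have : wt 0 = 1 := by simp [wt]
    rw [this]
    linarith
  · have h1 : ¬ wt (q - 1) ≤ b := Nat.find_min hex (by omega)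
    have h2 : wt (q - 1) = 16 * wt q := by
      have h3 : q = (q - 1) + 1 := by omega
      conv_rhs => rw [h3]
      unfold wt
      rw [pow_succ]
      ring
    rw [← h2]
    exact (not_le.1 h1).le

theorem sum_wt_le (s : Finset ℕ) : ∑ q ∈ s, wt q ≤ 2 := by
  refine le_trans (Finset.sum_le_sum fun q _ => ?_) (sum_st_le s)
  unfold wt st
  exact pow_le_pow_left₀ (by norm_num) (by norm_num) q

/-- **Budget at a point**: if the point `x` has negativity `b i` at level `i` with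
`∑_{i < J} b i ≥ 16 B + 2`, then `(c₀ κ B / 4) ^ 2 / 64 * ρ_J ≤ ∑_{i < J} N i`. -/
theorem Total.budget {κ : ℝ} {ρ N : ℕ → E → ℝ}
    (h : Total η c₀ κ M D Ω adm t₀ φ lam₁ lam₂ ν ρ N) (hη : IsKernel η K c₀)
    (hκ0 : 0 < κ) (hκ1 : κ ≤ 1) {x : E} (hx : x ∈ D) (b : ℕ → ℝ) (hb1 : ∀ i, b i ≤ 1)
    (hb : ∀ i, 0 < b i → x ∈ adm i ∧ ∃ r, t₀ / 2 ^ i ≤ r ∧ r ≤ 2 * (t₀ / 2 ^ i) ∧
      Lam lam₁ lam₂ (ker η x r) ≤ -(b i * ∫ y, ker η x r y ∂ν))
    {B : ℝ} (hB : 8 ≤ c₀ / 4 * κ * B) {J : ℕ} (hJ : 16 * B + 2 ≤ ∑ i ∈ Finset.range J, b i) :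
    (c₀ / 4 * κ * B) ^ 2 / 64 * ρ J x ≤ ∑ i ∈ Finset.range J, N i x := by
  classical
  have hc0 := hη.pos
  have hc1 : c₀ ≤ 1 := (hη.lower 0 (by rw [norm_zero]; norm_num)).trans (hη.le_one 0)
  let I : Finset ℕ := (Finset.range J).filter fun i => wt i ≤ b i
  have hcls : ∀ i, ∃ q, wt i ≤ b i → (q < i + 1 ∧ wt q ≤ b i ∧ b i ≤ 16 * wt q) := by
    intro i
    by_cases hi : wt i ≤ b i
    · obtain ⟨q, h1, h2, h3⟩ := exists_class (hb1 i) hi
      exact ⟨q, fun _ => ⟨h1, h2, h3⟩⟩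
    · exact ⟨0, fun h => absurd h hi⟩
  choose q hq using hcls
  have hmem : ∀ i ∈ I, q i < i + 1 ∧ x ∈ Cen η D adm t₀ lam₁ lam₂ ν i (q i) := by
    intro i hi
    have hi2 := (Finset.mem_filter.1 hi).2
    obtain ⟨h1, h2, h3⟩ := hq i hi2
    have hpos : 0 < b i := lt_of_lt_of_le (wt_pos i) hi2
    obtain ⟨hadm, r, hr1, hr2, hr3⟩ := hb i hpos
    refine ⟨h1, hx, hadm, r, hr1, hr2, hr3.trans ?_⟩
    have h4 : 0 ≤ ∫ y, ker η x r y ∂ν := integral_nonneg fun y => ker_nonneg hη x r y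
    have := mul_le_mul_of_nonneg_right h2 h4
    linarith
  have hsum : B ≤ ∑ i ∈ I, wt (q i) := by
    have h1 : ∑ i ∈ Finset.range J, b i
        = ∑ i ∈ I, b i + ∑ i ∈ (Finset.range J).filter (fun i => ¬ wt i ≤ b i), b i :=
      (Finset.sum_filter_add_sum_filter_not _ _ _).symm
    have h2 : ∑ i ∈ I, b i ≤ 16 * ∑ i ∈ I, wt (q i) := by
      rw [Finset.mul_sum]
      exact Finset.sum_le_sum fun i hi => (hq i (Finset.mem_filter.1 hi).2).2.2
    have h3 : ∑ i ∈ (Finset.range J).filter (fun i => ¬ wt i ≤ b i), b i ≤ 2 := by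
      refine le_trans (Finset.sum_le_sum fun i hi => ?_)
        (sum_wt_le ((Finset.range J).filter (fun i => ¬ wt i ≤ b i)))
      exact (not_le.1 (Finset.mem_filter.1 hi).2).le
    linarith
  refine Vale.Agent.P214.EX.budget (fun i => ρ i x) (fun i => (h.good i).nonneg x)
    (fun i => (h.step i).le x) (fun i => N i x) (fun i => (h.step i).nonneg x)
    (κ := c₀ / 4 * κ) (by positivity) (by nlinarith) I q J
    (fun i hi => Finset.mem_range.1 (Finset.mem_filter.1 hi).1) (fun i hi => ?_) hsum hB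
  obtain ⟨h1, h2⟩ := hmem i hi
  have h3 := (h.step i).cls (q i) h1 x h2
  constructor
  · calc c₀ / 4 * κ * (st (q i) * wt (q i)) * ρ i x
        = c₀ / 4 * (κ * st (q i) * wt (q i)) * ρ i x := by ring
      _ ≤ _ := h3.1
  · calc ρ (i + 1) x ≤ (1 - c₀ / 4 * (κ * st (q i))) * ρ i x := h3.2
      _ = (1 - c₀ / 4 * κ * st (q i)) * ρ i x := by ring

/-- **Budget at a point, in the limit.** -/
theorem Total.budget_lim {κ : ℝ} {ρ N : ℕ → E → ℝ}
    (h : Total η c₀ κ M D Ω adm t₀ φ lam₁ lam₂ ν ρ N) (hη : IsKernel η K c₀)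
    (hκ0 : 0 < κ) (hκ1 : κ ≤ 1) {x : E} (hx : x ∈ D) (b : ℕ → ℝ) (hb1 : ∀ i, b i ≤ 1)
    (hb : ∀ i, 0 < b i → x ∈ adm i ∧ ∃ r, t₀ / 2 ^ i ≤ r ∧ r ≤ 2 * (t₀ / 2 ^ i) ∧
      Lam lam₁ lam₂ (ker η x r) ≤ -(b i * ∫ y, ker η x r y ∂ν))
    {B : ℝ} (hB : 8 ≤ c₀ / 4 * κ * B) {J : ℕ} (hJ : 16 * B + 2 ≤ ∑ i ∈ Finset.range J, b i) :
    (c₀ / 4 * κ * B) ^ 2 / 64 * rhoLim ρ x ≤ negLim N x := by
  have h1 := h.budget hη hκ0 hκ1 hx b hb1 hb hB hJ
  have h2 := rhoLim_le h.good x J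
  have h3 := sum_N_le_negLim wt_le_one h.good h.step x (Finset.range J)
  refine le_trans ?_ (h1.trans h3)
  exact mul_le_mul_of_nonneg_left h2 (by positivity)

end

end Vale.Agent.P214.EX
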